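import Mathlib
import Vale.Agent.P279.Bdl.B1

/-!
# P279: collisions in general position

If there is a curve of degree `b` with multiplicities `m₁` and `m₂` through every configuration,
then for every `l` there is either a curve of degree `l` with multiplicities `m₁` or a curve of
degree `b` with multiplicities `l + 1` (at one further point) and `m₂`, for every configuration.
-/

namespace Vale.Agent.P279

open MvPolynomial

namespace Exp

open Gl

/-- Scaling of both variables. -/
noncomputable def scal2 (t : ℚ) : MvPolynomial (Fin 2) ℚ →ₐ[ℚ] MvPolynomial (Fin 2) ℚ :=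
  aeval (fun j => C t * X j)

theorem scal2_X (t : ℚ) (j : Fin 2) : scal2 t (X j) = C t * X j := by
  rw [scal2, aeval_X]

theorem scal2_C (t a : ℚ) : scal2 t (C a) = C a := (scal2 t).commutes a

theorem coeff_scal2 (t : ℚ) (P : MvPolynomial (Fin 2) ℚ) (δ : Fin 2 →₀ ℕ) :
    coeff δ (scal2 t P) = t ^ (δ 0 + δ 1) * coeff δ P := by
  induction P using MvPolynomial.induction_on' with
  | monomial u a =>
    have h1 : scal2 t (monomial u a) = monomial u (t ^ (u 0 + u 1) * a) := by
      rw [monomial_eq, monomial_eq, map_mul, scal2_C, Finsupp.prod_fintype _ _ (by simp),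
        Fin.prod_univ_two, map_mul, map_pow, map_pow, scal2_X, scal2_X, mul_pow, mul_pow, C_mul,
        pow_add, C_mul, C_pow, C_pow]
      ring
    rw [h1, coeff_monomial, coeff_monomial]
    split_ifs with h
    · rw [h]
    · rw [mul_zero]
  | add p q hp hq => rw [map_add, coeff_add, coeff_add, hp, hq]; ring

theorem shift_scal2 (t : ℚ) (q q' : Fin 2 → ℚ) (h : ∀ j, q' j = t * q j)
    (P : MvPolynomial (Fin 2) ℚ) : shift q (scal2 t P) = scal2 t (shift q' P) := by
  have : (shift q).comp (scal2 t) = (scal2 t).comp (shift q') := by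
    apply algHom_ext
    intro i
    simp only [AlgHom.comp_apply]
    rw [scal2_X, shift_X, map_mul, shift_X, shift_C, map_add, scal2_X, scal2_C, h, C_mul]
    ring
  exact DFunLike.congr_fun this P

theorem multGE_scal2 {t : ℚ} {q q' : Fin 2 → ℚ} (h0 : ∀ j, q' j = t * q j)
    {m : ℕ} {P : MvPolynomial (Fin 2) ℚ} (h : MultGE q' m P) : MultGE q m (scal2 t P) := by
  intro α hα
  rw [shift_scal2 t q q' h0, coeff_scal2, h α hα, mul_zero]

/-- The part of a polynomial of low total degree. -/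
noncomputable def low2 (k : ℕ) (P : MvPolynomial (Fin 2) ℚ) : MvPolynomial (Fin 2) ℚ :=
  ∑ δ ∈ P.support.filter (fun δ => δ 0 + δ 1 ≤ k), monomial δ (coeff δ P)

theorem coeff_low2 (k : ℕ) (P : MvPolynomial (Fin 2) ℚ) (ε : Fin 2 →₀ ℕ) :
    coeff ε (low2 k P) = if ε 0 + ε 1 ≤ k then coeff ε P else 0 := by
  rw [low2, coeff_sum]
  simp only [coeff_monomial]
  rw [Finset.sum_ite_eq']
  simp only [Finset.mem_filter, mem_support_iff]
  by_cases h1 : ε 0 + ε 1 ≤ k
  · by_cases h2 : coeff ε P = 0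
    · simp only [h2, ne_eq, not_true_eq_false, false_and, ↓reduceIte, ite_self]
    · simp only [ne_eq, h2, not_false_eq_true, h1, and_self, ↓reduceIte]
  · simp only [ne_eq, h1, and_false, ↓reduceIte]

theorem glueT {ι₁ ι₂ : Type*} [Fintype ι₁] [Fintype ι₂] (b l : ℕ) (m₁ : ι₁ → ℕ) (m₂ : ι₂ → ℕ)
    (h : Eff b 0 (Sum.elim m₁ m₂)) :
    Eff l 0 m₁ ∨ Eff b 0 (Sum.elim (fun _ : Unit => l + 1) m₂) := by
  classical
  by_contra hcon
  push Not at hcon
  obtain ⟨h1, h2⟩ := hcon
  unfold Eff at h1 h2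
  push Not at h1 h2
  obtain ⟨q₁, h1⟩ := h1
  obtain ⟨q', h2⟩ := h2
  set z : Fin 2 → ℚ := q' (Sum.inl ()) with hz
  set q₂ : ι₂ → Fin 2 → ℚ := fun i => q' (Sum.inr i) - z with hq₂
  have h2' : ∀ P : MvPolynomial (Fin 2) ℚ, P ≠ 0 → InV b 0 P → MultGE 0 (l + 1) P →
      ∃ i, ¬ MultGE (q₂ i) (m₂ i) P := by
    intro P hP hV hl
    obtain ⟨i, hi⟩ := h2 (shift (-z) P) (shift_ne_zero _ hP) (hV.shift _)
    rcases i with i | i
    · exfalso
      apply hi
      intro α hα
      rw [shift_shift]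
      have h3 : q' (Sum.inl i) + -z = 0 := by
        rw [hz]
        simp
      rw [h3]
      exact hl α hα
    · refine ⟨i, fun hm => hi ?_⟩
      intro α hα
      rw [shift_shift]
      have h3 : q' (Sum.inr i) + -z = q₂ i := by
        rw [hq₂]
        ext j
        simp [sub_eq_add_neg]
      rw [h3]
      exact hm α hα
  -- submodules
  let W₁ : Submodule ℚ (MvPolynomial (Fin 2) ℚ) :=
    { carrier := {P | ∀ i, MultGE (q₁ i) (m₁ i) P}
      add_mem' := fun hP hQ i => (hP i).add (hQ i)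
      zero_mem' := fun _ => MultGE.zero
      smul_mem' := fun r _ hP i => (hP i).smul r }
  let W₂ : Submodule ℚ (MvPolynomial (Fin 2) ℚ) :=
    { carrier := {P | ∀ i, MultGE (q₂ i) (m₂ i) P}
      add_mem' := fun hP hQ i => (hP i).add (hQ i)
      zero_mem' := fun _ => MultGE.zero
      smul_mem' := fun r _ hP i => (hP i).smul r }
  let VL : Submodule ℚ (MvPolynomial (Fin 2) ℚ) :=
    { carrier := {P | InV l 0 P}
      add_mem' := fun hP hQ => hP.add hQ
      zero_mem' := InV.zero
      smul_mem' := fun r _ hP => hP.smul r }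
  let VH : Submodule ℚ (MvPolynomial (Fin 2) ℚ) :=
    { carrier := {P | ∀ δ ∈ P.support, δ 0 + δ 1 ≤ b ∧ l + 1 ≤ δ 0 + δ 1}
      add_mem' := fun {P Q} hP hQ δ hδ => by
        rcases Finset.mem_union.mp (support_add hδ) with h | h
        · exact hP δ h
        · exact hQ δ h
      zero_mem' := fun δ hδ => by simp at hδ
      smul_mem' := fun r P hP δ hδ => hP δ (support_smul hδ) }
  obtain ⟨T₁, hT₁, hT₁'⟩ := exists_retract VL W₁ (by
    intro P hP hPW
    by_contra h0
    obtain ⟨i, hi⟩ := h1 P h0 hP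
    exact hi (hPW i))
  obtain ⟨T₂, hT₂, hT₂'⟩ := exists_retract VH W₂ (by
    intro P hP hPW
    by_contra h0
    obtain ⟨i, hi⟩ := h2' P h0 (fun δ hδ => ⟨(hP δ hδ).1, by have := (hP δ hδ).1; omega⟩) (by
      intro α hα
      rw [shift_zero_apply]
      by_contra h3
      have := (hP α (mem_support_iff.mpr h3)).2
      omega)
    exact hi (hPW i))
  obtain ⟨K₁, hK₁, hb₁⟩ := exists_bound T₁ b
  obtain ⟨K₂, hK₂, hb₂⟩ := exists_bound T₂ b
  have hKK : 0 ≤ K₁ * K₂ := mul_nonneg hK₁ hK₂
  set t : ℚ := 1 / (K₁ * K₂ + 1) with ht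
  have ht0 : 0 < t := by positivity
  have ht1 : t ≤ 1 := by
    rw [ht, div_le_one (by linarith only [hKK])]
    linarith only [hKK]
  have htK : t * (K₁ * K₂) < 1 := by
    rw [ht, div_mul_eq_mul_div, one_mul, div_lt_one (by linarith only [hKK])]
    linarith only
  -- the degenerate configuration
  obtain ⟨P', hP0', hPV', hPm'⟩ :=
    h (Sum.elim (fun i j => t * q₁ i j + z j) (fun i => q' (Sum.inr i)))
  set P := shift z P' with hPdef
  have hP0 : P ≠ 0 := shift_ne_zero _ hP0'
  have hPV : InV b 0 P := hPV'.shift _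
  have hPm1 : ∀ i, MultGE (fun j => t * q₁ i j) (m₁ i) P := by
    intro i α hα
    rw [hPdef, shift_shift]
    have h3 : (fun j => t * q₁ i j) + z = fun j => t * q₁ i j + z j := rfl
    rw [h3]
    exact hPm' (Sum.inl i) α hα
  have hPm2 : ∀ i, MultGE (q₂ i) (m₂ i) P := by
    intro i α hα
    rw [hPdef, shift_shift]
    have h3 : q₂ i + z = q' (Sum.inr i) := by
      rw [hq₂]
      simp
    rw [h3]
    exact hPm' (Sum.inr i) α hα
  set L := low2 l P with hL
  set H := P - L with hH
  have cL : ∀ ε, coeff ε L = if ε 0 + ε 1 ≤ l then coeff ε P else 0 := coeff_low2 _ _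
  have cH : ∀ ε, coeff ε H = if ε 0 + ε 1 ≤ l then 0 else coeff ε P := by
    intro ε
    rw [hH, coeff_sub, cL]
    split_ifs <;> ring
  have hLV : ∀ s : ℚ, scal2 s L ∈ VL := by
    intro s δ hδ
    rw [mem_support_iff, coeff_scal2, cL] at hδ
    split_ifs at hδ with h3
    · omega
    · exact absurd (mul_zero _) hδ
  have hHV : H ∈ VH := by
    intro δ hδ
    rw [mem_support_iff, cH] at hδ
    split_ifs at hδ with h3
    · exact absurd rfl hδ
    · have := hPV δ (mem_support_iff.mpr hδ)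
      omega
  have hbox : ∀ Q : MvPolynomial (Fin 2) ℚ, (∀ ε, coeff ε P = 0 → coeff ε Q = 0) → Q.support ⊆ box b := by
    intro Q hQ δ hδ
    apply mem_box
    rw [mem_support_iff] at hδ
    exact (hPV δ (mem_support_iff.mpr (fun h => hδ (hQ δ h)))).1
  have h4 : P = L + H := by rw [hH]; ring
  -- block one
  have e1 : scal2 t L = - T₁ (scal2 t H) := by
    have h3 : T₁ (scal2 t P) = 0 := by
      apply hT₁'
      intro i
      exact multGE_scal2 (q' := fun j => t * q₁ i j) (fun _ => rfl) (hPm1 i)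
    rw [h4, map_add, map_add, hT₁ _ (hLV t)] at h3
    exact (neg_eq_of_add_eq_zero_left h3).symm
  have e2 : H = - T₂ L := by
    have h3 : T₂ P = 0 := hT₂' _ hPm2
    rw [h4, map_add, hT₂ _ hHV] at h3
    exact (neg_eq_of_add_eq_zero_right h3).symm
  have n1 : nrm b (scal2 t L) ≤ K₁ * nrm b (scal2 t H) := by
    rw [e1, nrm_neg]
    apply hb₁
    apply hbox
    intro ε hε
    rw [coeff_scal2, cH, hε]
    simp only [ite_self, mul_zero]
  have n2 : nrm b H ≤ K₂ * nrm b L := by
    conv_lhs => rw [e2]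
    rw [nrm_neg]
    apply hb₂
    apply hbox
    intro ε hε
    rw [cL, hε]
    simp only [ite_self]
  have n3 : nrm b (scal2 t H) ≤ t ^ (l + 1) * nrm b H := by
    unfold nrm
    rw [Finset.mul_sum]
    apply Finset.sum_le_sum
    intro δ _
    rw [coeff_scal2, abs_mul, abs_of_nonneg (show 0 ≤ t ^ (δ 0 + δ 1) by positivity), cH]
    split_ifs with h3
    · simp only [abs_zero, mul_zero, le_refl]
    · apply mul_le_mul_of_nonneg_right _ (abs_nonneg _)
      exact pow_le_pow_of_le_one ht0.le ht1 (by omega)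
  have n4 : t ^ l * nrm b L ≤ nrm b (scal2 t L) := by
    unfold nrm
    rw [Finset.mul_sum]
    apply Finset.sum_le_sum
    intro δ _
    rw [coeff_scal2, abs_mul, abs_of_nonneg (show 0 ≤ t ^ (δ 0 + δ 1) by positivity), cL]
    split_ifs with h3
    · apply mul_le_mul_of_nonneg_right _ (abs_nonneg _)
      exact pow_le_pow_of_le_one ht0.le ht1 h3
    · simp only [abs_zero, mul_zero, le_refl]
  have n5 : nrm b L ≤ K₁ * (t * nrm b H) := by
    have h5 : t ^ l * nrm b L ≤ t ^ l * (K₁ * (t * nrm b H)) := by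
      calc t ^ l * nrm b L ≤ nrm b (scal2 t L) := n4
        _ ≤ K₁ * nrm b (scal2 t H) := n1
        _ ≤ K₁ * (t ^ (l + 1) * nrm b H) := mul_le_mul_of_nonneg_left n3 hK₁
        _ = _ := by ring
    exact le_of_mul_le_mul_left h5 (by positivity)
  have hL0 := nrm_nonneg b L
  have hH0 := nrm_nonneg b H
  have n6 : nrm b L = 0 := by
    have h3 : nrm b L ≤ t * (K₁ * K₂) * nrm b L := by
      calc nrm b L ≤ K₁ * (t * nrm b H) := n5
        _ ≤ K₁ * (t * (K₂ * nrm b L)) :=
          mul_le_mul_of_nonneg_left (mul_le_mul_of_nonneg_left n2 ht0.le) hK₁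
        _ = _ := by ring
    nlinarith only [h3, hL0, htK]
  have n7 : nrm b H = 0 := by
    rw [n6, mul_zero] at n2
    linarith only [hH0, n2]
  apply hP0
  ext ε
  rw [coeff_zero]
  by_contra hε
  have hbε : ε ∈ box b := mem_box (hPV ε (mem_support_iff.mpr hε)).1
  have h3 := le_nrm (P := L) hbε
  have h4 := le_nrm (P := H) hbε
  rw [n6, cL] at h3
  rw [n7, cH] at h4
  split_ifs at h3 h4 with h5
  · exact hε (abs_nonpos_iff.mp h3)
  · exact hε (abs_nonpos_iff.mp h4)

end Exp

end Vale.Agent.P279
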