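import Mathlib
import Vale.Agent.P279.Bdl.B1

/-!
# P279: families of curves over the affine line
-/

namespace Vale.Agent.P279

open MvPolynomial

namespace Exp

open Gen

theorem exists_kernel {ι : Type*} [Fintype ι] (b c : ℕ) (m : ι → ℕ) (h : Eff b c m)
    (q : ι → Fin 2 → Polynomial ℚ) :
    ∃ x : Cols b c → Polynomial ℚ, x ≠ 0 ∧ (mat b c m q).mulVec x = 0 := by
  classical
  by_contra hcon
  push Not at hcon
  set K := FractionRing (Polynomial ℚ) with hK
  set φ : Polynomial ℚ →+* K := algebraMap (Polynomial ℚ) K with hφ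
  have hinj : Function.Injective φ := IsFractionRing.injective _ _
  obtain ⟨L0, hL0⟩ := exists_left_inverse (mat b c m (fun i k => φ (q i k))) (by
    intro y hy
    obtain ⟨a, ha⟩ := IsLocalization.exist_integer_multiples_of_finite
      (nonZeroDivisors (Polynomial ℚ)) y
    choose g hg using ha
    have ha0 : (a : Polynomial ℚ) ≠ 0 := nonZeroDivisors.ne_zero a.2
    have hg' : (fun i => φ (g i)) = φ a • y := by
      funext i
      rw [Pi.smul_apply, smul_eq_mul]
      have := hg i
      rw [Algebra.smul_def] at this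
      exact this
    have h1 : (mat b c m q).mulVec g = 0 := by
      funext j
      apply hinj
      rw [Pi.zero_apply, map_zero]
      have h2 : φ ((mat b c m q).mulVec g j) =
          ((mat b c m q).map φ).mulVec (fun i => φ (g i)) j := by
        simp only [Matrix.mulVec, dotProduct, map_sum, map_mul, Matrix.map_apply]
      rw [h2, mat_map, hg', Matrix.mulVec_smul, hy, smul_zero]
      rfl
    have h2 : g = 0 := by
      by_contra h3
      exact hcon g h3 h1
    funext i
    have h3 := congrFun hg' i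
    rw [h2, Pi.smul_apply, smul_eq_mul] at h3
    simp only [Pi.zero_apply, map_zero] at h3
    rcases mul_eq_zero.mp h3.symm with h4 | h4
    · exact absurd (hinj (by rw [h4, map_zero])) ha0
    · exact h4)
  obtain ⟨a, ha⟩ := IsLocalization.exist_integer_multiples_of_finite
    (nonZeroDivisors (Polynomial ℚ)) (fun p : Cols b c × (Σ i, RowsAt (m i)) => L0 p.1 p.2)
  choose g hg using ha
  set L2 : Matrix (Cols b c) (Σ i, RowsAt (m i)) (Polynomial ℚ) := fun i j => g (i, j) with hL2
  have hL2' : L2.map φ = φ a • L0 := by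
    ext i j
    rw [Matrix.map_apply, hL2, hφ, hg (i, j), Matrix.smul_apply, Algebra.smul_def, smul_eq_mul]
  have hprod : L2 * mat b c m q =
      (a : Polynomial ℚ) • (1 : Matrix (Cols b c) (Cols b c) (Polynomial ℚ)) := by
    have hm : Function.Injective (fun M : Matrix (Cols b c) (Cols b c) (Polynomial ℚ) =>
        M.map φ) := Matrix.map_injective hinj
    apply hm
    simp only
    rw [Matrix.map_mul, hL2', mat_map, Matrix.smul_mul, hL0]
    ext i j
    simp only [Matrix.smul_apply, Matrix.map_apply, smul_eq_mul, map_mul, Matrix.one_apply]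
    split_ifs <;> simp
  have ha0 : (a : Polynomial ℚ) ≠ 0 := nonZeroDivisors.ne_zero a.2
  obtain ⟨z, hz⟩ : ∃ z : ℚ, Polynomial.eval z (a : Polynomial ℚ) ≠ 0 := by
    by_contra hcon2
    push Not at hcon2
    apply ha0
    apply Polynomial.funext
    intro z
    rw [hcon2 z, Polynomial.eval_zero]
  set e : Polynomial ℚ →+* ℚ := Polynomial.evalRingHom z with he
  obtain ⟨x, hx, hMx⟩ := (exists_iff b c m (fun i k => e (q i k))).mp (h _)
  have h5 := congrArg (fun M : Matrix (Cols b c) (Cols b c) (Polynomial ℚ) => M.map e) hprod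
  rw [Matrix.map_mul, mat_map] at h5
  have h6 := congrArg (fun M => Matrix.mulVec M x) h5
  rw [← Matrix.mulVec_mulVec, hMx, Matrix.mulVec_zero] at h6
  have h7 : ((a : Polynomial ℚ) • (1 : Matrix (Cols b c) (Cols b c) (Polynomial ℚ))).map e =
      (e (a : Polynomial ℚ)) • (1 : Matrix (Cols b c) (Cols b c) ℚ) := by
    ext i j
    simp only [Matrix.map_apply, Matrix.smul_apply, Matrix.one_apply, smul_eq_mul, map_mul]
    split_ifs <;> simp
  rw [h7, Matrix.smul_mulVec, Matrix.one_mulVec] at h6
  rcases smul_eq_zero.mp h6.symm with h8 | h8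
  · exact hz h8
  · exact hx h8

/-- A family of curves over the affine line, not identically zero at the origin. -/
theorem exists_family {ι : Type*} [Fintype ι] (b c : ℕ) (m : ι → ℕ) (h : Eff b c m)
    (q : ι → Fin 2 → Polynomial ℚ) :
    ∃ P : MvPolynomial (Fin 2) (Polynomial ℚ), InV b c P ∧ (∀ i, MultGE (q i) (m i) P) ∧
      ∃ δ, (coeff δ P).coeff 0 ≠ 0 := by
  classical
  have hex : ∃ k : ℕ, ∃ x : Cols b c → Polynomial ℚ, (mat b c m q).mulVec x = 0 ∧
      ∃ δ, (x δ).coeff k ≠ 0 := by
    obtain ⟨x, hx, hMx⟩ := exists_kernel b c m h q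
    obtain ⟨δ, hδ⟩ := Function.ne_iff.mp hx
    rw [Pi.zero_apply] at hδ
    obtain ⟨k, hk⟩ : ∃ k, (x δ).coeff k ≠ 0 := by
      by_contra hcon
      push Not at hcon
      exact hδ (Polynomial.ext hcon)
    exact ⟨k, x, hMx, δ, hk⟩
  obtain ⟨x, hMx, δ, hδ⟩ := Nat.find_spec hex
  have hmin := fun j (hj : j < Nat.find hex) => Nat.find_min hex hj
  have h0 : Nat.find hex = 0 := by
    by_contra hne
    obtain ⟨k, hk⟩ := Nat.exists_eq_succ_of_ne_zero hne
    have hx0 : ∀ ε, (x ε).coeff 0 = 0 := by
      intro ε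
      by_contra h3
      exact hmin 0 (by omega) ⟨x, hMx, ε, h3⟩
    have hx : x = (Polynomial.X : Polynomial ℚ) • fun ε => (x ε).divX := by
      funext ε
      rw [Pi.smul_apply, smul_eq_mul]
      conv_lhs => rw [← Polynomial.X_mul_divX_add (x ε), hx0, map_zero, add_zero]
    have h4 : (mat b c m q).mulVec (fun ε => (x ε).divX) = 0 := by
      rw [hx, Matrix.mulVec_smul] at hMx
      exact (smul_eq_zero.mp hMx).resolve_left Polynomial.X_ne_zero
    refine hmin k (by omega) ⟨_, h4, δ, ?_⟩
    rw [Polynomial.coeff_divX, ← Nat.succ_eq_add_one, ← hk]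
    exact hδ
  rw [h0] at hδ
  refine ⟨poly x, inV_poly x, (multGE_poly_iff m q x).mpr hMx, δ.1, ?_⟩
  rw [coeff_poly]
  exact hδ

end Exp

end Vale.Agent.P279
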