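import Mathlib
import Vale.Agent.P279.Exp.Fam

/-!
# P279: sixteen general points

There is no curve of degree `4 M` with sixteen points of multiplicity `M` in general position
(`M ≥ 1`): the square case of Nagata's theorem, proved here by deforming sixteen points of the
cuspidal quartic `y = x ^ 4` to first order.
-/

namespace Vale.Agent.P279

namespace Exp

open Polynomial

/-- Coordinates adapted to the curve `y = x ^ 4`: `P ↦ P(x, x ^ 4 + z)`. -/
noncomputable def Psi : MvPolynomial (Fin 2) ℚ →ₐ[ℚ] ℚ[X][X] :=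
  MvPolynomial.aeval ![C X, C (X ^ 4) + X]

/-- The inverse change of coordinates. -/
noncomputable def Theta : ℚ[X][X] →+* MvPolynomial (Fin 2) ℚ :=
  eval₂RingHom (eval₂RingHom MvPolynomial.C (MvPolynomial.X 0))
    (MvPolynomial.X 1 - MvPolynomial.X 0 ^ 4)

/-- The restriction to the curve `y = x ^ 4`. -/
noncomputable def rst : MvPolynomial (Fin 2) ℚ →ₐ[ℚ] ℚ[X] :=
  MvPolynomial.aeval ![X, X ^ 4]

theorem Psi_X0 : Psi (MvPolynomial.X 0) = C X := by
  simp [Psi]

theorem Psi_X1 : Psi (MvPolynomial.X 1) = C (X ^ 4) + X := by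
  simp [Psi]

theorem Psi_C (a : ℚ) : Psi (MvPolynomial.C a) = C (C a) := Psi.commutes a

theorem Theta_Psi (P : MvPolynomial (Fin 2) ℚ) : Theta (Psi P) = P := by
  have : (Theta.comp (Psi : MvPolynomial (Fin 2) ℚ →+* ℚ[X][X])) = RingHom.id _ := by
    apply MvPolynomial.ringHom_ext
    · intro a
      simp only [RingHom.comp_apply, RingHom.coe_coe, RingHom.id_apply]
      rw [Psi_C]
      simp [Theta]
    · intro i
      fin_cases i
      · simp only [RingHom.comp_apply, RingHom.coe_coe, RingHom.id_apply, Fin.zero_eta]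
        rw [Psi_X0]
        simp [Theta]
      · simp only [RingHom.comp_apply, RingHom.coe_coe, RingHom.id_apply, Fin.mk_one]
        rw [Psi_X1, map_add, C_pow, map_pow]
        simp [Theta]
  exact RingHom.congr_fun this P

theorem Psi_Theta (g : ℚ[X][X]) : Psi (Theta g) = g := by
  have : ((Psi : MvPolynomial (Fin 2) ℚ →+* ℚ[X][X]).comp Theta) = RingHom.id _ := by
    apply Polynomial.ringHom_ext'
    · apply Polynomial.ringHom_ext'
      · ext a
        simp [Theta]
      · simp only [RingHom.comp_apply, RingHom.coe_coe, RingHom.id_apply, Theta,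
          coe_eval₂RingHom, eval₂_C, eval₂_X, Psi_X0]
    · simp only [RingHom.comp_apply, RingHom.coe_coe, RingHom.id_apply, Theta,
        coe_eval₂RingHom, eval₂_X, map_sub, map_pow, Psi_X0, Psi_X1]
      ring
  exact RingHom.congr_fun this g

theorem coeff_zero_Psi (P : MvPolynomial (Fin 2) ℚ) : (Psi P).coeff 0 = rst P := by
  have : ((Polynomial.constantCoeff (R := ℚ[X])).comp
      (Psi : MvPolynomial (Fin 2) ℚ →+* ℚ[X][X])) =
      (rst : MvPolynomial (Fin 2) ℚ →+* ℚ[X]) := by
    apply MvPolynomial.ringHom_ext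
    · intro a
      simp only [RingHom.comp_apply, RingHom.coe_coe, Psi_C]
      simp [rst]
    · intro i
      fin_cases i
      · simp only [RingHom.comp_apply, RingHom.coe_coe, Fin.zero_eta, Psi_X0]
        simp [rst]
      · simp only [RingHom.comp_apply, RingHom.coe_coe, Fin.mk_one, Psi_X1, map_add]
        rw [constantCoeff_apply, coeff_C_zero]
        simp [rst]
  exact RingHom.congr_fun this P

/-- The exponents occurring in the restriction of a polynomial of degree at most `D`. -/
theorem coeff_rst {P : MvPolynomial (Fin 2) ℚ} {D e : ℕ} (hP : P.totalDegree ≤ D)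
    (h : ∀ i j, i + j ≤ D → i + 4 * j ≠ e) : (rst P).coeff e = 0 := by
  rw [P.as_sum, map_sum, finsetSum_coeff]
  refine Finset.sum_eq_zero fun δ hδ => ?_
  have h1 := MvPolynomial.le_totalDegree hδ
  rw [Finsupp.sum_fintype _ _ (fun _ => rfl), Fin.sum_univ_two] at h1
  rw [rst, MvPolynomial.aeval_monomial, Finsupp.prod_fintype _ _ (by simp), Fin.prod_univ_two]
  simp only [Matrix.cons_val_zero, Matrix.cons_val_one]
  rw [← pow_mul, ← pow_add, ← Polynomial.C_eq_algebraMap, coeff_C_mul, coeff_X_pow, if_neg, mul_zero]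
  intro h2
  exact h (δ 0) (δ 1) (by omega) h2.symm

theorem totalDegree_Q : (MvPolynomial.X 1 - MvPolynomial.X 0 ^ 4 :
    MvPolynomial (Fin 2) ℚ).totalDegree = 4 := by
  apply le_antisymm
  · refine (MvPolynomial.totalDegree_sub _ _).trans ?_
    rw [MvPolynomial.totalDegree_X, MvPolynomial.totalDegree_X_pow]
    norm_num
  · have h1 : (Finsupp.single 0 4 : Fin 2 →₀ ℕ) ∈ (MvPolynomial.X 1 - MvPolynomial.X 0 ^ 4 :
        MvPolynomial (Fin 2) ℚ).support := by
      rw [MvPolynomial.mem_support_iff, MvPolynomial.coeff_sub, MvPolynomial.coeff_X_pow,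
        MvPolynomial.coeff_X, if_neg, if_pos rfl]
      · norm_num
      · intro h
        have := DFunLike.congr_fun h 0
        simp at this
    have := MvPolynomial.le_totalDegree h1
    rwa [Finsupp.sum_single_index rfl] at this

/-- If the first `k` coefficients along the curve vanish, then the next one is the restriction of
a polynomial of degree smaller by `4 k`. -/
theorem exists_quot {P : MvPolynomial (Fin 2) ℚ} {N k : ℕ} (hP : P.totalDegree ≤ N)
    (h : ∀ j, j < k → (Psi P).coeff j = 0) :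
    ∃ R : MvPolynomial (Fin 2) ℚ, P = (MvPolynomial.X 1 - MvPolynomial.X 0 ^ 4) ^ k * R ∧
      (Psi P).coeff k = rst R ∧ (P ≠ 0 → R.totalDegree + 4 * k ≤ N) := by
  obtain ⟨G, hG⟩ := (X_pow_dvd_iff (f := Psi P) (n := k)).mpr h
  have hQ0 : (MvPolynomial.X 1 - MvPolynomial.X 0 ^ 4 : MvPolynomial (Fin 2) ℚ) ≠ 0 := by
    intro h0
    have := totalDegree_Q
    rw [h0, MvPolynomial.totalDegree_zero] at this
    omega
  have hPR : P = (MvPolynomial.X 1 - MvPolynomial.X 0 ^ 4) ^ k * Theta G := by
    conv_lhs => rw [← Theta_Psi P, hG, map_mul, map_pow]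
    simp [Theta]
  refine ⟨Theta G, hPR, ?_, ?_⟩
  · rw [hG, coeff_X_pow_mul', if_pos le_rfl, Nat.sub_self, ← coeff_zero_Psi, Psi_Theta]
  · intro hP0
    have hR0 : Theta G ≠ 0 := by
      rintro h0
      rw [h0, mul_zero] at hPR
      exact hP0 hPR
    have h1 : P.totalDegree = 4 * k + (Theta G).totalDegree := by
      conv_lhs => rw [hPR, MvPolynomial.totalDegree_mul_of_isDomain (pow_ne_zero _ hQ0) hR0]
      congr 1
      clear * - hQ0
      induction k with
      | zero => simp
      | succ k ih =>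
        rw [pow_succ, MvPolynomial.totalDegree_mul_of_isDomain (pow_ne_zero _ hQ0) hQ0, ih,
          totalDegree_Q]
        ring
    omega

/-! ### Ideals -/

theorem dvd_coeff_of_mem {A : Type*} [CommRing A] (a : A) (M : ℕ) :
    ∀ h : A[X], h ∈ (Ideal.span {C a, X} : Ideal A[X]) ^ M → ∀ j, a ^ (M - j) ∣ h.coeff j := by
  induction M with
  | zero =>
    intro h _ j
    rw [Nat.zero_sub, pow_zero]
    exact one_dvd _
  | succ M ih =>
    intro h hh
    rw [pow_succ] at hh
    refine Submodule.mul_induction_on hh ?_ ?_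
    · intro r hr s hs j
      obtain ⟨u, v, rfl⟩ := Ideal.mem_span_pair.mp hs
      have h1 : r * (u * C a + v * X) = (r * u) * C a + (r * v) * X := by ring
      have hru : r * u ∈ (Ideal.span {C a, X} : Ideal A[X]) ^ M := Ideal.mul_mem_right _ _ hr
      have hrv : r * v ∈ (Ideal.span {C a, X} : Ideal A[X]) ^ M := Ideal.mul_mem_right _ _ hr
      rw [h1, coeff_add]
      apply dvd_add
      · rw [coeff_mul_C]
        have h2 := ih _ hru j
        have h3 : a ^ (M + 1 - j) ∣ a ^ (M - j) * a := by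
          rw [← pow_succ]
          exact pow_dvd_pow _ (by omega)
        exact h3.trans (mul_dvd_mul_right h2 a)
      · rcases j with _ | j
        · rw [coeff_mul_X_zero]
          exact dvd_zero _
        · rw [coeff_mul_X]
          have h2 := ih _ hrv j
          rw [Nat.add_sub_add_right]
          exact h2
    · intro r s hr hs j
      rw [coeff_add]
      exact dvd_add (hr j) (hs j)

theorem dvd_taylor_of_mem {A : Type*} [CommRing A] (a w : A) (M : ℕ) {g : A[X]}
    (hg : g ∈ (Ideal.span {C a, X - C w} : Ideal A[X]) ^ M) (j : ℕ) :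
    a ^ (M - j) ∣ (g.taylor w).coeff j := by
  apply dvd_coeff_of_mem a M
  have h1 : g.taylor w = compRingHom (X + C w) g := by
    rw [taylor_apply, coe_compRingHom_apply]
  rw [h1]
  have h2 := Ideal.mem_map_of_mem (compRingHom (X + C w)) hg
  rw [Ideal.map_pow, Ideal.map_span, Set.image_pair] at h2
  have h3 : compRingHom (X + C w) (C a) = C a := by simp
  have h4 : compRingHom (X + C w) (X - C w) = X := by simp
  rw [h3, h4] at h2
  exact h2

/-- Multiplicities and powers of ideals. -/
theorem mem_pow_of_multGE {R S : Type*} [CommRing R] [CommRing S]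
    (f : MvPolynomial (Fin 2) R →+* S) (J : Ideal S) {q : Fin 2 → R} {M : ℕ}
    {P : MvPolynomial (Fin 2) R} (hJ : ∀ j, f (MvPolynomial.X j - MvPolynomial.C (q j)) ∈ J)
    (hP : MultGE q M P) : f P ∈ J ^ M := by
  rw [← shift_neg_shift q P, (shift q P).as_sum, map_sum, map_sum]
  refine Ideal.sum_mem _ fun α hα => ?_
  have h1 : M ≤ α 0 + α 1 := by
    by_contra h
    exact MvPolynomial.mem_support_iff.mp hα (hP α (by omega))
  have h2 : shift (-q) (MvPolynomial.monomial α (MvPolynomial.coeff α (shift q P))) =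
      MvPolynomial.C (MvPolynomial.coeff α (shift q P)) *
        ((MvPolynomial.X 0 - MvPolynomial.C (q 0)) ^ (α 0) *
        (MvPolynomial.X 1 - MvPolynomial.C (q 1)) ^ (α 1)) := by
    rw [MvPolynomial.monomial_eq, Finsupp.prod_fintype _ _ (by simp), Fin.prod_univ_two, map_mul,
      map_mul, map_pow, map_pow, shift_X, shift_X, shift_C, Pi.neg_apply, Pi.neg_apply, map_neg,
      map_neg, ← sub_eq_add_neg, ← sub_eq_add_neg]
  rw [h2, map_mul, map_mul, map_pow, map_pow]
  apply Ideal.mul_mem_left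
  apply Ideal.pow_le_pow_right h1
  rw [pow_add]
  exact Ideal.mul_mem_mul (Ideal.pow_mem_pow (hJ 0) _) (Ideal.pow_mem_pow (hJ 1) _)

/-! ### The deformation -/

/-- The substitution `z ↦ t z`. -/
noncomputable def tau : ℚ[X][X] →+* ℚ[X][X][X] :=
  eval₂RingHom ((C : ℚ[X][X] →+* ℚ[X][X][X]).comp (C : ℚ[X] →+* ℚ[X][X]))
    ((X : ℚ[X][X][X]) * C (X : ℚ[X][X]))

theorem coeff_tau (g : ℚ[X][X]) (e : ℕ) : (tau g).coeff e = C (g.coeff e) * X ^ e := by
  induction g using Polynomial.induction_on' with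
  | add p q hp hq => rw [map_add, coeff_add, hp, hq, coeff_add, map_add, add_mul]
  | monomial n a =>
    have h1 : tau (monomial n a) = C (C a * X ^ n) * X ^ n := by
      have h2 : ((X : ℚ[X][X][X]) * C (X : ℚ[X][X])) ^ n =
          (X : ℚ[X][X][X]) ^ n * C (X : ℚ[X][X]) ^ n := by ring
      rw [tau, coe_eval₂RingHom, eval₂_monomial, RingHom.comp_apply, h2, ← C_pow, C_mul]
      ring
    rw [h1, coeff_C_mul, coeff_X_pow, coeff_monomial]
    by_cases h : n = e
    · subst h
      simp
    · rw [if_neg (fun h' => h h'.symm), if_neg h]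
      simp

/-- The family of curves in the coordinates `x`, `z`, where `y = x ^ 4 + t z`. -/
noncomputable def Phi : MvPolynomial (Fin 2) ℚ[X] →+* ℚ[X][X][X] :=
  MvPolynomial.eval₂Hom
    (mapRingHom ((C : ℚ[X] →+* ℚ[X][X]).comp (C : ℚ →+* ℚ[X])))
    ![(C (C (X : ℚ[X]) : ℚ[X][X]) : ℚ[X][X][X]),
      (C (C (X ^ 4 : ℚ[X]) : ℚ[X][X]) : ℚ[X][X][X]) + (X : ℚ[X][X][X]) * C (X : ℚ[X][X])]

theorem Phi_C (a : ℚ[X]) : Phi (MvPolynomial.C a) =
    a.map ((C : ℚ[X] →+* ℚ[X][X]).comp (C : ℚ →+* ℚ[X])) := by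
  rw [Phi, MvPolynomial.eval₂Hom_C]
  rfl

theorem Phi_X0 : Phi (MvPolynomial.X 0) = C (C X) := by
  simp [Phi]

theorem Phi_X1 : Phi (MvPolynomial.X 1) = C (C (X ^ 4)) + X * C X := by
  simp [Phi]

theorem Phi_map (p : MvPolynomial (Fin 2) ℚ) : Phi (MvPolynomial.map C p) = tau (Psi p) := by
  have : Phi.comp (MvPolynomial.map C) =
      tau.comp (Psi : MvPolynomial (Fin 2) ℚ →+* ℚ[X][X]) := by
    apply MvPolynomial.ringHom_ext
    · intro a
      simp only [RingHom.comp_apply, RingHom.coe_coe, MvPolynomial.map_C, Phi_C, Psi_C, map_C]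
      simp [tau]
    · intro i
      fin_cases i
      · simp only [RingHom.comp_apply, RingHom.coe_coe, MvPolynomial.map_X, Fin.zero_eta, Phi_X0,
          Psi_X0]
        simp [tau]
      · simp only [RingHom.comp_apply, RingHom.coe_coe, MvPolynomial.map_X, Fin.mk_one, Phi_X1,
          Psi_X1, map_add]
        rw [tau, coe_eval₂RingHom, eval₂_C, eval₂_X]
        rfl
  exact RingHom.congr_fun this p

/-- The coefficient of `t ^ a` in a family. -/
noncomputable def tc (P : MvPolynomial (Fin 2) ℚ[X]) (a : ℕ) : MvPolynomial (Fin 2) ℚ :=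
  ∑ δ ∈ P.support, MvPolynomial.monomial δ ((MvPolynomial.coeff δ P).coeff a)

theorem coeff_tc (P : MvPolynomial (Fin 2) ℚ[X]) (a : ℕ) (δ : Fin 2 →₀ ℕ) :
    MvPolynomial.coeff δ (tc P a) = (MvPolynomial.coeff δ P).coeff a := by
  classical
  rw [tc, MvPolynomial.coeff_sum]
  simp only [MvPolynomial.coeff_monomial]
  rw [Finset.sum_ite_eq']
  split_ifs with h
  · rfl
  · rw [MvPolynomial.notMem_support_iff.mp h, coeff_zero]

theorem coeff_Phi (P : MvPolynomial (Fin 2) ℚ[X]) (j : ℕ) :
    (Phi P).coeff j =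
      ∑ x ∈ Finset.HasAntidiagonal.antidiagonal j, C ((Psi (tc P x.1)).coeff x.2) * X ^ x.2 := by
  have h1 : Phi P = ∑ δ ∈ P.support,
      (MvPolynomial.coeff δ P).map ((C : ℚ[X] →+* ℚ[X][X]).comp (C : ℚ →+* ℚ[X])) *
      tau (Psi (MvPolynomial.monomial δ 1)) := by
    conv_lhs => rw [P.as_sum, map_sum]
    refine Finset.sum_congr rfl fun δ _ => ?_
    have h2 : MvPolynomial.monomial δ (MvPolynomial.coeff δ P) =
        MvPolynomial.C (MvPolynomial.coeff δ P) *
          MvPolynomial.map C (MvPolynomial.monomial δ (1 : ℚ)) := by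
      rw [MvPolynomial.map_monomial, map_one, MvPolynomial.C_mul_monomial, mul_one]
    rw [h2, map_mul, Phi_C, Phi_map]
  rw [h1, finsetSum_coeff]
  simp only [coeff_mul, coeff_map, coeff_tau]
  rw [Finset.sum_comm]
  refine Finset.sum_congr rfl fun x _ => ?_
  have h3 : Psi (tc P x.1) = ∑ δ ∈ P.support,
      C (C ((MvPolynomial.coeff δ P).coeff x.1)) * Psi (MvPolynomial.monomial δ 1) := by
    rw [tc, map_sum]
    refine Finset.sum_congr rfl fun δ _ => ?_
    rw [← Psi_C, ← map_mul, MvPolynomial.C_mul_monomial, mul_one]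
  rw [h3, finsetSum_coeff, map_sum, Finset.sum_mul]
  refine Finset.sum_congr rfl fun δ _ => ?_
  rw [coeff_C_mul, C_mul, RingHom.comp_apply]
  ring

theorem coeff_coeff_Phi (P : MvPolynomial (Fin 2) ℚ[X]) (j k : ℕ) :
    ((Phi P).coeff j).coeff k = if k ≤ j then (Psi (tc P (j - k))).coeff k else 0 := by
  rw [coeff_Phi, finsetSum_coeff]
  simp only [coeff_C_mul, coeff_X_pow, mul_ite, mul_one, mul_zero]
  split_ifs with h
  · rw [Finset.sum_eq_single (j - k, k)]
    · simp
    · rintro ⟨a, e⟩ hx hne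
      rw [Finset.HasAntidiagonal.mem_antidiagonal] at hx
      simp only at hx
      rw [if_neg]
      rintro rfl
      apply hne
      ext
      · simp only; omega
      · rfl
    · intro hx
      exfalso
      apply hx
      rw [Finset.HasAntidiagonal.mem_antidiagonal]
      simp only; omega
  · refine Finset.sum_eq_zero fun x hx => ?_
    rw [Finset.HasAntidiagonal.mem_antidiagonal] at hx
    rw [if_neg]
    omega

end Exp

end Vale.Agent.P279
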