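import Mathlib
import Vale.Agent.P279.Exp.S

/-!
# P279: sixteen general points, conclusion
-/

namespace Vale.Agent.P279

namespace Exp

open Polynomial

/-- Sixteen distinct abscissas. -/
def sx (i : Fin 16) : ℚ := (i : ℕ)

theorem sx_injective : Function.Injective sx := by
  intro i j h
  simp only [sx, Nat.cast_inj] at h
  exact Fin.ext h

/-- The monic polynomial with roots the sixteen abscissas. -/
noncomputable def W : ℚ[X] := ∏ i : Fin 16, (X - C (sx i))

theorem W_monic : W.Monic := monic_prod_of_monic _ _ fun _ _ => monic_X_sub_C _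

theorem W_natDegree : W.natDegree = 16 := by
  rw [W, natDegree_prod_of_monic _ _ fun _ _ => monic_X_sub_C _]
  simp

theorem W_nextCoeff : W.nextCoeff = -120 := by
  rw [W, prod_X_sub_C_nextCoeff]
  simp only [sx, Fin.sum_univ_succ, Finset.univ_eq_empty, Finset.sum_empty]
  norm_num [Fin.val_succ]

theorem W_pow_dvd {f : ℚ[X]} {N : ℕ} (h : ∀ i, (X - C (sx i)) ^ N ∣ f) : W ^ N ∣ f := by
  rw [W, ← Finset.prod_pow]
  apply Finset.prod_dvd_of_coprime
  · intro i _ j _ hij
    exact (pairwise_coprime_X_sub_C sx_injective hij).pow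
  · intro i _
    exact h i

/-- A multiple of `W ^ N` of degree at most `16 N` without its subleading term vanishes. -/
theorem eq_zero_of_W_pow_dvd {f : ℚ[X]} {N : ℕ} (hN : 1 ≤ N) (h : W ^ N ∣ f)
    (hd : ∀ e, 16 * N < e → f.coeff e = 0) (hc : f.coeff (16 * N - 1) = 0) : f = 0 := by
  by_contra hf
  obtain ⟨g, hg⟩ := h
  have hg0 : g ≠ 0 := by
    rintro rfl
    rw [mul_zero] at hg
    exact hf hg
  have hWN : (W ^ N).Monic := W_monic.pow N
  have hWd : (W ^ N).natDegree = 16 * N := by
    rw [W_monic.natDegree_pow, W_natDegree]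
    ring
  have h1 : f.natDegree = 16 * N + g.natDegree := by
    rw [hg, hWN.natDegree_mul' hg0, hWd]
  have h2 : f.natDegree ≤ 16 * N := by
    by_contra h3
    have := hd f.natDegree (by omega)
    rw [coeff_natDegree, leadingCoeff_eq_zero] at this
    exact hf this
  have h3 : g.natDegree = 0 := by omega
  rw [eq_C_of_natDegree_eq_zero h3] at hg hg0
  set c := g.coeff 0 with hcdef
  have hc0 : c ≠ 0 := by
    intro h4
    rw [h4, map_zero] at hg0
    exact hg0 rfl
  have h5 : f.nextCoeff = N • (-120 : ℚ) * c := by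
    rw [hg, nextCoeff_mul_C, W_monic.nextCoeff_pow, W_nextCoeff]
  have h6 : f.natDegree = 16 * N := by omega
  rw [nextCoeff_of_natDegree_pos (by omega), h6, hc] at h5
  have h7 : (N : ℚ) ≠ 0 := by
    have : N ≠ 0 := by omega
    exact_mod_cast this
  rw [nsmul_eq_mul] at h5
  have h8 : (N : ℚ) * (-120) * c ≠ 0 := mul_ne_zero (mul_ne_zero h7 (by norm_num)) hc0
  exact h8 h5.symm

theorem coeff_taylor_natDegree' {A : Type*} [CommRing A] (w : A) (g : A[X]) :
    (g.taylor w).coeff g.natDegree = g.coeff g.natDegree := by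
  rw [taylor_coeff, eval_eq_sum_range' (n := 1), Finset.sum_range_one, pow_zero, mul_one,
    hasseDeriv_coeff, zero_add, Nat.choose_self, Nat.cast_one, one_mul]
  have := natDegree_hasseDeriv_le g g.natDegree
  omega

theorem coeff_taylor_pred {A : Type*} [CommRing A] (w : A) (g : A[X]) (n : ℕ)
    (hg : g.natDegree ≤ n + 1) :
    (g.taylor w).coeff n = g.coeff n + (n + 1) * g.coeff (n + 1) * w := by
  rw [taylor_coeff, eval_eq_sum_range' (n := 2), Finset.sum_range_succ, Finset.sum_range_one,
    pow_zero, mul_one, pow_one, hasseDeriv_coeff, hasseDeriv_coeff, zero_add, Nat.choose_self,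
    Nat.cast_one, one_mul, add_comm 1 n, Nat.choose_succ_self_right]
  · push_cast
    ring
  · have := natDegree_hasseDeriv_le g n
    omega

theorem strict16 {M : ℕ} (hM : 1 ≤ M) : ¬ Eff (4 * M) 0 (fun _ : Fin 16 => M) := by
  intro h
  set q : Fin 16 → Fin 2 → ℚ[X] := fun i => ![C (sx i), C (sx i ^ 4) + C (sx i ^ 11) * X] with hq
  obtain ⟨P, hPV, hPm, δ, hδ⟩ := exists_family (4 * M) 0 _ h q
  have htc : ∀ a, (tc P a).totalDegree ≤ 4 * M := by
    intro a
    rw [MvPolynomial.totalDegree, Finset.sup_le_iff]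
    intro ε hε
    rw [MvPolynomial.mem_support_iff, coeff_tc] at hε
    have h1 : MvPolynomial.coeff ε P ≠ 0 := by
      intro h2
      rw [h2, coeff_zero] at hε
      exact hε rfl
    have h2 := (hPV ε (MvPolynomial.mem_support_iff.mpr h1)).1
    rw [Finsupp.sum_fintype _ _ (fun _ => rfl), Fin.sum_univ_two]
    exact h2
  set S : ℕ → ℚ[X][X] := fun j => (Phi P).coeff j with hSdef
  have hS : ∀ j k, (S j).coeff k = if k ≤ j then (Psi (tc P (j - k))).coeff k else 0 :=
    coeff_coeff_Phi P
  have h0 : tc P 0 ≠ 0 := by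
    intro h0
    apply hδ
    rw [← coeff_tc, h0, MvPolynomial.coeff_zero]
  have hex : ∃ j, S j ≠ 0 := by
    have h1 : Psi (tc P 0) ≠ 0 := by
      intro h1
      apply h0
      rw [← Theta_Psi (tc P 0), h1, map_zero]
    obtain ⟨k, hk⟩ : ∃ k, (Psi (tc P 0)).coeff k ≠ 0 := by
      by_contra hcon
      push Not at hcon
      exact h1 (Polynomial.ext hcon)
    refine ⟨k, fun h2 => hk ?_⟩
    have := hS k k
    rw [if_pos le_rfl, Nat.sub_self, h2, coeff_zero] at this
    exact this.symm
  classical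
  set ν := Nat.find hex with hνdef
  have hν : S ν ≠ 0 := Nat.find_spec hex
  have hmin : ∀ j, j < ν → S j = 0 := fun j hj => not_not.mp (Nat.find_min hex hj)
  have hvan : ∀ a k, a + k < ν → (Psi (tc P a)).coeff k = 0 := by
    intro a k hak
    have := hS (a + k) k
    rw [hmin _ hak, if_pos (by omega), Nat.add_sub_cancel, coeff_zero] at this
    exact this.symm
  have hcoef : ∀ k, k ≤ ν → ∃ R, tc P (ν - k) = (MvPolynomial.X 1 - MvPolynomial.X 0 ^ 4) ^ k * R ∧
      (S ν).coeff k = rst R ∧ (tc P (ν - k) ≠ 0 → R.totalDegree + 4 * k ≤ 4 * M) := by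
    intro k hk
    obtain ⟨R, h1, h2, h3⟩ := exists_quot (htc (ν - k)) (k := k) (fun j hj => hvan _ _ (by omega))
    refine ⟨R, h1, ?_, h3⟩
    rw [hS, if_pos hk, h2]
  have hgt : ∀ k, ν < k → (S ν).coeff k = 0 := by
    intro k hk
    rw [hS, if_neg (by omega)]
  -- a coefficient vanishes or is the restriction of a polynomial of small degree
  have hcoef' : ∀ k, k ≤ ν → (S ν).coeff k ≠ 0 → k ≤ M ∧
      ∀ e, (∀ i j, i + j ≤ 4 * (M - k) → i + 4 * j ≠ e) → ((S ν).coeff k).coeff e = 0 := by
    intro k hk hne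
    obtain ⟨R, h1, h2, h3⟩ := hcoef k hk
    have h4 : tc P (ν - k) ≠ 0 := by
      intro h5
      apply hne
      rw [hS, if_pos hk, h5, map_zero, coeff_zero]
    have h5 := h3 h4
    refine ⟨by omega, fun e he => ?_⟩
    rw [h2]
    exact coeff_rst (D := 4 * (M - k)) (by omega) he
  -- ideal membership
  have hmem : ∀ i, S ν ∈ (Ideal.span {C (X - C (sx i)), X - C (C (sx i ^ 11))} :
      Ideal ℚ[X][X]) ^ M := by
    intro i
    set I : Ideal ℚ[X][X] := Ideal.span {C (X - C (sx i)), X - C (C (sx i ^ 11))} with hI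
    have hI1 : C (X - C (sx i)) ∈ I := Ideal.subset_span (by simp)
    have hI2 : (X - C (C (sx i ^ 11)) : ℚ[X][X]) ∈ I := Ideal.subset_span (by simp)
    have h1 : Phi P ∈ (I.map (C : ℚ[X][X] →+* ℚ[X][X][X])) ^ M := by
      refine mem_pow_of_multGE (S := ℚ[X][X][X]) Phi _ (q := q i) ?_ (hPm i)
      intro j
      fin_cases j
      · simp only [Fin.zero_eta, hq, Matrix.cons_val_zero, map_sub, Phi_X0, Phi_C, map_C]
        have h2 : C (C (X : ℚ[X]) : ℚ[X][X]) - C (((C : ℚ[X] →+* ℚ[X][X]).comp C) (sx i)) =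
            (C (C (X - C (sx i)) : ℚ[X][X]) : ℚ[X][X][X]) := by
          rw [RingHom.comp_apply, map_sub, map_sub]
        rw [h2]
        exact Ideal.mem_map_of_mem _ hI1
      · have hq1 : q i 1 = C (sx i ^ 4) + C (sx i ^ 11) * X := rfl
        simp only [Fin.mk_one, hq1, map_sub, Phi_X1, Phi_C,
          Polynomial.map_add, Polynomial.map_mul, map_C, map_X]
        have h2 : (C (C (X ^ 4 : ℚ[X]) : ℚ[X][X]) : ℚ[X][X][X]) + X * C X -
            (C (((C : ℚ[X] →+* ℚ[X][X]).comp C) (sx i ^ 4)) +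
              C (((C : ℚ[X] →+* ℚ[X][X]).comp C) (sx i ^ 11)) * X) =
            C (C (X ^ 3 + C (sx i) * X ^ 2 + C (sx i) ^ 2 * X + C (sx i) ^ 3)) *
              C (C (X - C (sx i))) + X * C (X - C (C (sx i ^ 11))) := by
          rw [RingHom.comp_apply, RingHom.comp_apply, ← C_mul, ← C_mul]
          have h3 : (X ^ 3 + C (sx i) * X ^ 2 + C (sx i) ^ 2 * X + C (sx i) ^ 3) *
            (X - C (sx i)) = (X ^ 4 - C (sx i ^ 4) : ℚ[X]) := by
            rw [C_pow]
            ring
          rw [h3, map_sub, map_sub, map_sub]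
          ring
        rw [h2]
        exact Ideal.add_mem _ (Ideal.mul_mem_left _ _ (Ideal.mem_map_of_mem _ hI1))
          (Ideal.mul_mem_left _ _ (Ideal.mem_map_of_mem _ hI2))
    have h2 : (I.map (C : ℚ[X][X] →+* ℚ[X][X][X])) ^ M = (I ^ M).map (C : ℚ[X][X] →+* ℚ[X][X][X]) :=
      (Ideal.map_pow (R := ℚ[X][X]) (S := ℚ[X][X][X]) C I M).symm
    rw [h2, Ideal.mem_map_C_iff] at h1
    exact h1 ν
  rcases lt_or_ge ν M with hlt | hge
  · -- the order in the deformation parameter is small
    set k := (S ν).natDegree with hk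
    have hf : (S ν).coeff k ≠ 0 := by
      rw [hk, coeff_natDegree, Ne, leadingCoeff_eq_zero]
      exact hν
    have hkν : k ≤ ν := by
      by_contra h1
      exact hf (hgt k (by omega))
    obtain ⟨hkM, hsupp⟩ := hcoef' k hkν hf
    apply hf
    apply eq_zero_of_W_pow_dvd (N := M - k) (by omega)
    · apply W_pow_dvd
      intro i
      have := dvd_taylor_of_mem _ _ M (hmem i) k
      rwa [hk, coeff_taylor_natDegree', ← hk] at this
    · intro e he
      apply hsupp
      intro i j hij h1
      omega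
    · apply hsupp
      intro i j hij h1
      omega
  · -- the order equals M
    obtain ⟨R0, h1, h2, h3⟩ := hcoef ν le_rfl
    rw [Nat.sub_self] at h1 h3
    have h4 := h3 h0
    have hνM : ν = M := by omega
    have h5 : R0.totalDegree = 0 := by omega
    rw [MvPolynomial.totalDegree_eq_zero_iff_eq_C] at h5
    set a := MvPolynomial.coeff 0 R0 with ha
    have ha0 : a ≠ 0 := by
      intro h6
      rw [h6, map_zero] at h5
      rw [h5, mul_zero] at h1
      exact h0 h1
    have h6 : (S ν).coeff ν = C a := by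
      rw [h2, h5, rst, MvPolynomial.aeval_C]
      rfl
    obtain ⟨n, rfl⟩ := Nat.exists_eq_add_of_le' hM
    have hcn : ∀ e, (∀ i j, i + j ≤ 4 → i + 4 * j ≠ e) → ((S ν).coeff n).coeff e = 0 := by
      intro e he
      by_cases h7 : (S ν).coeff n = 0
      · rw [h7, coeff_zero]
      · refine (hcoef' n (by omega) h7).2 e fun i j hij => he i j ?_
        omega
    have hdeg : (S ν).natDegree ≤ n + 1 := by
      rw [natDegree_le_iff_coeff_eq_zero]
      intro N hN
      exact hgt N (by omega)
    have hdvd : ∀ i, (X - C (sx i)) ∣ (S ν).coeff n + C ((n + 1) * a * sx i ^ 11) := by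
      intro i
      have h7 := dvd_taylor_of_mem _ _ (n + 1) (hmem i) n
      rw [coeff_taylor_pred _ _ _ hdeg, Nat.add_sub_cancel_left, pow_one, ← hνM, h6] at h7
      have h8 : (C ((n + 1) * a * sx i ^ 11) : ℚ[X]) = (n + 1) * C a * C (sx i ^ 11) := by
        rw [C_mul, C_mul, C_add, map_natCast, C_1]
      rw [h8]
      exact h7
    set g : ℚ[X] := (S ν).coeff n + C ((n + 1) * a) * X ^ 11 with hg
    have hg0 : g = 0 := by
      apply eq_zero_of_W_pow_dvd (N := 1) le_rfl
      · apply W_pow_dvd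
        intro i
        rw [pow_one, dvd_iff_isRoot, IsRoot.def, hg]
        have := hdvd i
        rw [dvd_iff_isRoot, IsRoot.def] at this
        simp only [eval_add, eval_mul, eval_C, eval_pow, eval_X] at this ⊢
        linarith only [this]
      · intro e he
        rw [hg, coeff_add, coeff_C_mul, coeff_X_pow, if_neg (by omega), mul_zero, add_zero]
        exact hcn e fun i j hij => by omega
      · rw [hg, coeff_add, coeff_C_mul, coeff_X_pow, if_neg (by omega), mul_zero, add_zero]
        exact hcn _ fun i j hij => by omega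
    have h9 := congrArg (fun f : ℚ[X] => f.coeff 11) hg0
    simp only [hg, coeff_add, coeff_C_mul, coeff_X_pow, if_true, mul_one, coeff_zero] at h9
    rw [hcn 11 fun i j hij => by omega, zero_add] at h9
    have h10 : ((n : ℚ) + 1) ≠ 0 := by positivity
    exact mul_ne_zero h10 ha0 h9

end Exp

end Vale.Agent.P279
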