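import Mathlib
import Vale.Agent.P279.Bdl.B1

/-!
# P279: the weighted structure theorem

Violating curves for the isotropic class `(β; w_i)` with weights `w_i`, `∑ w_i ^ 2 ≤ β ^ 2`: a
violating class yields a violating irreducible class whose multiplicities at the points of weight
one are all equal except possibly one, and whose self-intersection is at least minus each positive
multiplicity.
-/

namespace Vale.Agent.P279

open MvPolynomial

namespace Exp

/-- Equality case of Cauchy and Schwarz with weights. -/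
theorem cs_eq_w {ι : Type*} [Fintype ι] {β b : ℝ} (hβ : 0 < β) (w x : ι → ℝ)
    (hβ2 : ∑ i, w i ^ 2 ≤ β ^ 2)
    (h1 : ∑ i, x i ^ 2 ≤ 4 * b ^ 2) (h2 : 2 * (b * β) ≤ ∑ i, w i * x i)
    (hb : 0 ≤ b) (i : ι) : x i = 2 * b / β * w i := by
  set l : ℝ := 2 * b / β with hl
  have hl0 : 0 ≤ l := by positivity
  have hlβ : l * β = 2 * b := by
    rw [hl]
    field_simp
  have h3 : ∑ i, (x i - l * w i) ^ 2 =
      ∑ i, x i ^ 2 - 2 * l * ∑ i, w i * x i + l ^ 2 * ∑ i, w i ^ 2 := by
    rw [Finset.mul_sum, Finset.mul_sum, ← Finset.sum_sub_distrib, ← Finset.sum_add_distrib]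
    refine Finset.sum_congr rfl fun i _ => ?_
    ring
  have h4 : ∑ i, (x i - l * w i) ^ 2 ≤ 0 := by
    rw [h3]
    have h5 : l ^ 2 * ∑ i, w i ^ 2 ≤ l ^ 2 * β ^ 2 :=
      mul_le_mul_of_nonneg_left hβ2 (sq_nonneg l)
    have h6 : 2 * l * (2 * (b * β)) ≤ 2 * l * (∑ i, w i * x i) :=
      mul_le_mul_of_nonneg_left h2 (by positivity)
    have h7 : l ^ 2 * β ^ 2 = 4 * b ^ 2 := by
      rw [← mul_pow, hlβ]
      ring
    have h8 : 2 * l * (2 * (b * β)) = 8 * b ^ 2 := by
      rw [show 2 * l * (2 * (b * β)) = 4 * b * (l * β) by ring, hlβ]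
      ring
    linarith
  have h6 : (x i - l * w i) ^ 2 ≤ 0 :=
    (Finset.single_le_sum (fun j _ => sq_nonneg (x j - l * w j)) (Finset.mem_univ i)).trans h4
  have h7 : x i - l * w i = 0 := by
    have := le_antisymm h6 (sq_nonneg _)
    exact pow_eq_zero_iff (two_ne_zero) |>.mp this
  linarith only [h7]

section Pairs

variable {ι : Type*} [Fintype ι] [DecidableEq ι]

/-- Bezout for two curves of the same degree. -/
theorem bezout_same' {K : Type*} [Field K] {ι : Type*} [Fintype ι] (q : ι → Fin 2 → K)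
    (hq : Function.Injective q) {F G : MvPolynomial (Fin 2) K} (hF : Irreducible F)
    (hG : G ≠ 0) (hd : G.totalDegree = F.totalDegree) (hd1 : G.degreeOf 1 = F.degreeOf 1)
    (hne : ∃ i, ordAt (q i) F ≠ ordAt (q i) G) :
    ∑ i, ordAt (q i) F * ordAt (q i) G ≤ F.totalDegree ^ 2 := by
  have := bezout_same q hq hF hG hd hd1 hne
  omega

/-- Four permuted copies of a curve. -/
theorem pair_eq_w {β : ℝ} (hβ : 0 < β) (w : ι → ℕ) (hβ2 : ∑ i, (w i : ℝ) ^ 2 ≤ β ^ 2)
    {F : MvPolynomial (Fin 2) (GK ι)} (hF : Irreducible F)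
    (hN : F.totalDegree * β ≤ ∑ i, (w i : ℝ) * (ordAt (gen ι i) F : ℝ))
    {i j k l : ι} (hik : i ≠ k) (hil : i ≠ l) (hjk : j ≠ k) (hjl : j ≠ l)
    (hwij : w i = w j) (hwkl : w k = w l)
    (h1 : ordAt (gen ι i) F ≠ ordAt (gen ι j) F) (h2 : ordAt (gen ι k) F ≠ ordAt (gen ι l) F)
    (p : ι) :
    (ordAt (gen ι p) F : ℝ) +
      ordAt (gen ι (Equiv.swap k l (Equiv.swap i j p))) F = 2 * F.totalDegree / β * w p := by
  set M : ι → ℕ := fun p => ordAt (gen ι p) F with hM
  have hM' : ∀ p, ordAt (gen ι p) F = M p := fun p => rfl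
  set F1 := permP (Equiv.swap i j) F with hF1
  set F2 := permP (Equiv.swap k l) F with hF2
  set F3 := permP (Equiv.swap i j * Equiv.swap k l) F with hF3
  have o1 : ∀ p, ordAt (gen ι p) F1 = M (Equiv.swap i j p) := by
    intro p
    rw [hF1, permP_ordAt', Equiv.symm_swap]
  have o2 : ∀ p, ordAt (gen ι p) F2 = M (Equiv.swap k l p) := by
    intro p
    rw [hF2, permP_ordAt', Equiv.symm_swap]
  have o3 : ∀ p, ordAt (gen ι p) F3 = M (Equiv.swap k l (Equiv.swap i j p)) := by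
    intro p
    rw [hF3, permP_ordAt']
    rfl
  have hij : i ≠ j := by
    rintro rfl
    exact h1 rfl
  have hkl : k ≠ l := by
    rintro rfl
    exact h2 rfl
  have hq := gen_injective ι
  have b01 := bezout_same' (gen ι) hq hF (permP_irreducible (Equiv.swap i j) hF).ne_zero
    (permP_totalDegree _ _) (permP_degreeOf _ _ _) ⟨i, by
      rw [← hF1, o1, Equiv.swap_apply_left]
      exact h1⟩
  have b02 := bezout_same' (gen ι) hq hF (permP_irreducible (Equiv.swap k l) hF).ne_zero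
    (permP_totalDegree _ _) (permP_degreeOf _ _ _) ⟨k, by
      rw [← hF2, o2, Equiv.swap_apply_left]
      exact h2⟩
  have b31 := bezout_same' (gen ι) hq (permP_irreducible (Equiv.swap i j * Equiv.swap k l) hF)
    (permP_irreducible (Equiv.swap i j) hF).ne_zero
    (by rw [permP_totalDegree, permP_totalDegree]) (by rw [permP_degreeOf, permP_degreeOf]) ⟨k, by
      rw [← hF3, ← hF1, o3, o1, Equiv.swap_apply_of_ne_of_ne hik.symm hjk.symm,
        Equiv.swap_apply_left]
      exact h2.symm⟩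
  have b32 := bezout_same' (gen ι) hq (permP_irreducible (Equiv.swap i j * Equiv.swap k l) hF)
    (permP_irreducible (Equiv.swap k l) hF).ne_zero
    (by rw [permP_totalDegree, permP_totalDegree]) (by rw [permP_degreeOf, permP_degreeOf]) ⟨i, by
      rw [← hF3, ← hF2, o3, o2, Equiv.swap_apply_left, Equiv.swap_apply_of_ne_of_ne hjk hjl,
        Equiv.swap_apply_of_ne_of_ne hik hil]
      exact h1.symm⟩
  rw [← hF1] at b01
  rw [← hF2] at b02
  rw [← hF3, ← hF1, hF3, permP_totalDegree, ← hF3] at b31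
  rw [← hF3, ← hF2, hF3, permP_totalDegree, ← hF3] at b32
  simp only [hM', o1, o2, o3] at b01 b02 b31 b32
  set b := F.totalDegree
  have hw : ∀ p, M p + M (Equiv.swap k l (Equiv.swap i j p)) =
      M (Equiv.swap i j p) + M (Equiv.swap k l p) := by
    intro p
    by_cases hpi : p = i
    · rw [hpi, Equiv.swap_apply_left, Equiv.swap_apply_of_ne_of_ne hjk hjl,
        Equiv.swap_apply_of_ne_of_ne hik hil, add_comm]
    by_cases hpj : p = j
    · rw [hpj, Equiv.swap_apply_right, Equiv.swap_apply_of_ne_of_ne hjk hjl,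
        Equiv.swap_apply_of_ne_of_ne hik hil, add_comm]
    rw [Equiv.swap_apply_of_ne_of_ne hpi hpj]
  have hsum : ∑ p, (M p + M (Equiv.swap k l (Equiv.swap i j p))) ^ 2 ≤ 4 * b ^ 2 := by
    have : ∀ p, (M p + M (Equiv.swap k l (Equiv.swap i j p))) ^ 2 =
        M p * M (Equiv.swap i j p) + M p * M (Equiv.swap k l p) +
        M (Equiv.swap k l (Equiv.swap i j p)) * M (Equiv.swap i j p) +
        M (Equiv.swap k l (Equiv.swap i j p)) * M (Equiv.swap k l p) := by
      intro p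
      rw [sq]
      nth_rewrite 2 [hw p]
      ring
    simp only [this, Finset.sum_add_distrib]
    omega
  have hwswap : ∀ p, (w (Equiv.swap k l (Equiv.swap i j p)) : ℝ) = w p := by
    intro p
    have e1 : ∀ x, w (Equiv.swap k l x) = w x := by
      intro x
      rw [Equiv.swap_apply_def]
      split_ifs with ha hb
      · rw [ha, hwkl]
      · rw [hb, hwkl]
      · rfl
    have e2 : ∀ x, w (Equiv.swap i j x) = w x := by
      intro x
      rw [Equiv.swap_apply_def]
      split_ifs with ha hb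
      · rw [ha, hwij]
      · rw [hb, hwij]
      · rfl
    rw [e1, e2]
  have hsum1 : ∑ p, (w p : ℝ) * (M (Equiv.swap k l (Equiv.swap i j p)) : ℝ) =
      ∑ p, (w p : ℝ) * (M p : ℝ) := by
    have : ∀ p, (w p : ℝ) * (M (Equiv.swap k l (Equiv.swap i j p)) : ℝ) =
        (fun x => (w x : ℝ) * (M x : ℝ)) ((Equiv.swap i j).trans (Equiv.swap k l) p) := by
      intro p
      simp only [Equiv.trans_apply]
      rw [hwswap]
    simp only [this]
    exact Equiv.sum_comp ((Equiv.swap i j).trans (Equiv.swap k l)) (fun x => (w x : ℝ) * (M x : ℝ))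
  have := cs_eq_w (b := b) hβ (fun p => (w p : ℝ))
    (fun p => (M p : ℝ) + M (Equiv.swap k l (Equiv.swap i j p))) hβ2 (by exact_mod_cast hsum)
    (by
      simp only [mul_add, Finset.sum_add_distrib]
      rw [hsum1]
      linarith only [hN]) (Nat.cast_nonneg _) p
  exact this

theorem no_disjoint_pairs_w {β : ℝ} (hβ : 0 < β) (w : ι → ℕ)
    (hn : 5 ≤ (Finset.univ.filter (fun i => w i = 1)).card)
    (hβ2 : ∑ i, (w i : ℝ) ^ 2 ≤ β ^ 2)
    {F : MvPolynomial (Fin 2) (GK ι)} (hF : Irreducible F)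
    (hN : F.totalDegree * β ≤ ∑ i, (w i : ℝ) * (ordAt (gen ι i) F : ℝ))
    {i j k l : ι} (hik : i ≠ k) (hil : i ≠ l) (hjk : j ≠ k) (hjl : j ≠ l)
    (hwi : w i = 1) (hwj : w j = 1) (hwk : w k = 1) (hwl : w l = 1)
    (h1 : ordAt (gen ι i) F ≠ ordAt (gen ι j) F) :
    ordAt (gen ι k) F = ordAt (gen ι l) F := by
  by_contra h2
  have hij : i ≠ j := by
    rintro rfl
    exact h1 rfl
  have hkl : k ≠ l := by
    rintro rfl
    exact h2 rfl
  obtain ⟨p, hpw, hp⟩ : ∃ p, w p = 1 ∧ p ∉ ({i, j, k, l} : Finset ι) := by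
    by_contra hcon
    push Not at hcon
    have h3 : (Finset.univ.filter (fun i => w i = 1)).card ≤ ({i, j, k, l} : Finset ι).card :=
      Finset.card_le_card fun x hx => hcon x (by simpa using hx)
    have h4 := Finset.card_le_four (a := i) (b := j) (c := k) (d := l)
    omega
  simp only [Finset.mem_insert, Finset.mem_singleton, not_or] at hp
  obtain ⟨hpi, hpj, hpk, hpl⟩ := hp
  have hwij : w i = w j := by rw [hwi, hwj]
  have hwkl : w k = w l := by rw [hwk, hwl]
  have e1 := pair_eq_w hβ w hβ2 hF hN hik hil hjk hjl hwij hwkl h1 h2 p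
  rw [Equiv.swap_apply_of_ne_of_ne hpi hpj, Equiv.swap_apply_of_ne_of_ne hpk hpl, hpw] at e1
  have e2 := pair_eq_w hβ w hβ2 hF hN hik hil hjk hjl hwij hwkl h1 h2 i
  rw [Equiv.swap_apply_left, Equiv.swap_apply_of_ne_of_ne hjk hjl, hwi] at e2
  have h3 : ordAt (gen ι i) F ≠ ordAt (gen ι p) F := by
    intro h4
    rw [h4] at e2
    have h5 : (ordAt (gen ι p) F : ℝ) = ordAt (gen ι j) F := by linarith only [e1, e2]
    apply h1
    rw [h4]
    exact_mod_cast h5
  have e3 := pair_eq_w hβ w hβ2 hF hN hik hil hpk hpl (by rw [hwi, hpw]) hwkl h3 h2 i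
  rw [Equiv.swap_apply_left, Equiv.swap_apply_of_ne_of_ne hpk hpl, hwi] at e3
  apply h3
  have h5 : (ordAt (gen ι i) F : ℝ) = ordAt (gen ι p) F := by linarith only [e1, e3]
  exact_mod_cast h5

/-- The multiplicities of a violating irreducible curve at the points of weight one are equal
except possibly at one point. -/
theorem near_uniform_w {β : ℝ} (hβ : 0 < β) (w : ι → ℕ)
    (hn : 6 ≤ (Finset.univ.filter (fun i => w i = 1)).card)
    (hβ2 : ∑ i, (w i : ℝ) ^ 2 ≤ β ^ 2)
    {F : MvPolynomial (Fin 2) (GK ι)} (hF : Irreducible F)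
    (hN : F.totalDegree * β ≤ ∑ i, (w i : ℝ) * (ordAt (gen ι i) F : ℝ)) :
    ∃ (i₀ : ι) (μ : ℕ), w i₀ = 1 ∧ ∀ i, w i = 1 → i ≠ i₀ → ordAt (gen ι i) F = μ := by
  have key := fun {i j k l : ι} => no_disjoint_pairs_w (i := i) (j := j) (k := k) (l := l)
    hβ w (by omega) hβ2 hF hN
  have hcard : ∀ s : Finset ι, s.card < (Finset.univ.filter (fun i => w i = 1)).card →
      ∃ p, w p = 1 ∧ p ∉ s := by
    intro s hs
    by_contra hcon
    push Not at hcon
    have h3 : (Finset.univ.filter (fun i => w i = 1)).card ≤ s.card :=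
      Finset.card_le_card fun x hx => hcon x (by simpa using hx)
    omega
  obtain ⟨i₁, hw₁, -⟩ := hcard ∅ (by simp only [Finset.card_empty]; omega)
  by_cases hconst : ∀ i, w i = 1 → ordAt (gen ι i) F = ordAt (gen ι i₁) F
  · exact ⟨i₁, _, hw₁, fun i hi _ => hconst i hi⟩
  push Not at hconst
  obtain ⟨i, hwi, hi⟩ := hconst
  -- two further indices
  obtain ⟨k, hwk, hk⟩ := hcard {i, i₁} (by
    have h4 := Finset.card_le_two (a := i) (b := i₁)
    omega)
  obtain ⟨l, hwl, hl⟩ := hcard {i, i₁, k} (by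
    have h4 := Finset.card_le_three (a := i) (b := i₁) (c := k)
    omega)
  simp only [Finset.mem_insert, Finset.mem_singleton, not_or] at hk hl
  obtain ⟨hki, hki₁⟩ := hk
  obtain ⟨hli, hli₁, hlk⟩ := hl
  have hall : ∀ p, w p = 1 → p ≠ i → p ≠ i₁ → ordAt (gen ι p) F = ordAt (gen ι k) F := by
    intro p hwp hpi hpi₁
    exact (key (Ne.symm hki) (Ne.symm hpi) (Ne.symm hki₁) (Ne.symm hpi₁) hwi hw₁ hwk hwp hi).symm
  by_cases hik : ordAt (gen ι i) F = ordAt (gen ι k) F
  · refine ⟨i₁, ordAt (gen ι k) F, hw₁, fun p hwp hp => ?_⟩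
    by_cases hpi : p = i
    · rw [hpi, hik]
    · exact hall p hwp hpi hp
  · refine ⟨i, ordAt (gen ι k) F, hwi, fun p hwp hp => ?_⟩
    by_cases hpi₁ : p = i₁
    · have h5 := key (Ne.symm (by
        rintro rfl
        exact hi rfl) : i ≠ i₁) (Ne.symm hli) hki₁ (Ne.symm hlk) hwi hwk hw₁ hwl hik
      rw [hpi₁, h5]
      exact hall l hwl hli hli₁
    · exact hall p hwp hp hpi₁

end Pairs

/-- The weighted structure theorem. -/
theorem structure_w {ι : Type*} [Fintype ι] [DecidableEq ι] (w : ι → ℕ)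
    (hn : 6 ≤ (Finset.univ.filter (fun i => w i = 1)).card) {β : ℝ} (hβ : 0 < β)
    (hβ2 : ∑ i, (w i : ℝ) ^ 2 ≤ β ^ 2) (b : ℕ) (m : ι → ℕ) (hb : 1 ≤ b) (hE : Eff b 0 m)
    (hviol : b * β ≤ ∑ i, (w i : ℝ) * (m i : ℝ)) :
    ∃ (b' : ℕ) (m' : ι → ℕ), 1 ≤ b' ∧ b' ≤ b ∧ (∀ i, m' i ≤ b') ∧ Eff b' 0 m' ∧
      b' * β ≤ ∑ i, (w i : ℝ) * (m' i : ℝ) ∧
      (∃ (i₀ : ι) (μ : ℕ), w i₀ = 1 ∧ ∀ i, w i = 1 → i ≠ i₀ → m' i = μ) ∧
      (∀ i, 1 ≤ m' i → ∑ k, m' k ^ 2 ≤ b' ^ 2 + m' i) := by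
  classical
  obtain ⟨P, hP0, hPV, hPm⟩ := effGen_of_eff b 0 m hE
  -- the additive functional
  set N : MvPolynomial (Fin 2) (GK ι) → ℝ := fun Q =>
    Q.totalDegree * β - ∑ i, (w i : ℝ) * (ordAt (gen ι i) Q : ℝ) with hNdef
  have hmul : ∀ Q R, Q ≠ 0 → R ≠ 0 → N (Q * R) = N Q + N R := by
    intro Q R hQ hR
    simp only [hNdef]
    rw [totalDegree_mul_of_isDomain hQ hR]
    have h1 : ∀ i, (w i : ℝ) * (ordAt (gen ι i) (Q * R) : ℝ) =
        (w i : ℝ) * ordAt (gen ι i) Q + (w i : ℝ) * ordAt (gen ι i) R := by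
      intro i
      rw [ordAt_mul (gen ι i) hQ hR]
      push_cast
      ring
    simp only [h1, Finset.sum_add_distrib]
    push_cast
    ring
  have hunit : ∀ u, IsUnit u → N u = 0 := by
    intro u hu
    obtain ⟨a, ha, rfl⟩ := unit_eq_C hu
    simp only [hNdef, totalDegree_C, ordAt_C _ ha]
    simp only [CharP.cast_eq_zero, zero_mul, mul_zero, Finset.sum_const_zero, sub_self]
  obtain ⟨hPd, hPd1⟩ := (inV_iff hP0).mp hPV
  have hPord : ∀ i, m i ≤ ordAt (gen ι i) P := fun i =>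
    (multGE_iff_le_ordAt (gen ι i) (m i) hP0).mp (hPm i)
  have hNP : N P ≤ 0 := by
    have h1 : (P.totalDegree : ℝ) * β ≤ b * β := by
      apply mul_le_mul_of_nonneg_right _ hβ.le
      exact_mod_cast hPd
    have h3 : ∑ i, (w i : ℝ) * (m i : ℝ) ≤ ∑ i, (w i : ℝ) * (ordAt (gen ι i) P : ℝ) :=
      Finset.sum_le_sum fun i _ =>
        mul_le_mul_of_nonneg_left (by exact_mod_cast hPord i) (Nat.cast_nonneg _)
    simp only [hNdef]
    linarith only [hviol, h1, h3]
  have hPu : ¬ IsUnit P := by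
    intro hu
    obtain ⟨a, ha, rfl⟩ := unit_eq_C hu
    have h1 : ∀ i, m i = 0 := by
      intro i
      have := hPord i
      rw [ordAt_C _ ha] at this
      omega
    simp only [h1, Nat.cast_zero, mul_zero, Finset.sum_const_zero] at hviol
    have h3 : (0 : ℝ) < b * β := mul_pos (by exact_mod_cast hb) hβ
    linarith only [hviol, h3]
  obtain ⟨F, hF, hFP, hNF⟩ := exists_irreducible_factor N hmul hunit hP0 hPu hNP
  obtain ⟨R, hR⟩ := hFP
  have hR0 : R ≠ 0 := by
    rintro rfl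
    rw [mul_zero] at hR
    exact hP0 hR
  have hFd : F.totalDegree ≤ P.totalDegree := by
    rw [hR, totalDegree_mul_of_isDomain hF.ne_zero hR0]
    omega
  have hF1 := degreeOf_le_totalDegree' F
  have hN : (F.totalDegree : ℝ) * β ≤ ∑ i, (w i : ℝ) * (ordAt (gen ι i) F : ℝ) := by
    simp only [hNdef] at hNF
    linarith only [hNF]
  have hFV : InV F.totalDegree 0 F := by
    rw [inV_iff hF.ne_zero]
    omega
  refine ⟨F.totalDegree, fun i => ordAt (gen ι i) F,
    totalDegree_pos_of_irreducible hF, by omega,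
    fun i => ordAt_le_totalDegree _ hF.ne_zero, ?_, hN, ?_, ?_⟩
  · exact eff_of_generic (gen ι) (algebraicIndependent_gen ι) _ _ _ F hF.ne_zero hFV
      (fun i => multGE_ordAt (gen ι i) hF.ne_zero)
  · exact near_uniform_w hβ w hn hβ2 hF hN
  · intro i hi
    have := self_intersection hF i hi
    show ∑ k, ordAt (gen ι k) F ^ 2 ≤ F.totalDegree ^ 2 + ordAt (gen ι i) F
    omega

end Exp

end Vale.Agent.P279
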