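import Mathlib
import Vale.Agent.P279.Exp.W
import Vale.Agent.P279.Exp.G
import Vale.Agent.P279.Exp.S2

/-!
# P279: the descent

Violating irreducible curves for the weights `(1, …, 1, 4, …, 4)`; sixteen points of weight one
are merged into one point of weight four, and each time the degree drops by a factor `13 / 2`.
-/

namespace Vale.Agent.P279

namespace Exp

open Finset

/-- The weights. -/
def wt (u j : ℕ) : Fin u ⊕ Fin j → ℕ := Sum.elim (fun _ => 1) (fun _ => 4)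

theorem sum_wt_sq (u j : ℕ) : ∑ i, ((wt u j i : ℕ) : ℝ) ^ 2 = u + 16 * j := by
  rw [Fintype.sum_sum_type]
  simp only [wt, Sum.elim_inl, Sum.elim_inr, Nat.cast_one, one_pow, sum_const, card_univ,
    Fintype.card_fin, nsmul_eq_mul, mul_one]
  push_cast
  ring

theorem card_wt_one (u j : ℕ) : (univ.filter (fun i => wt u j i = 1)).card = u := by
  classical
  have h : univ.filter (fun i => wt u j i = 1) = univ.map Function.Embedding.inl := by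
    ext i
    rw [mem_filter, mem_map]
    constructor
    · rintro ⟨_, hi⟩
      rcases i with i | i
      · exact ⟨i, mem_univ _, rfl⟩
      · simp [wt] at hi
    · rintro ⟨i, _, rfl⟩
      exact ⟨mem_univ _, rfl⟩
  rw [h, card_map, card_univ, Fintype.card_fin]

/-- A violating class with the shape of an irreducible curve. -/
def IrrV (u j : ℕ) (β : ℝ) (b : ℕ) (m : Fin u ⊕ Fin j → ℕ) : Prop :=
  1 ≤ b ∧ (∀ i, m i ≤ b) ∧ Eff b 0 m ∧ b * β ≤ ∑ i, (wt u j i : ℝ) * (m i : ℝ) ∧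
    (∃ (i₀ : Fin u) (μ : ℕ), ∀ i, i ≠ i₀ → m (Sum.inl i) = μ) ∧
    (∀ i, 1 ≤ m i → ∑ k, m k ^ 2 ≤ b ^ 2 + m i)

theorem exists_irrV {u j : ℕ} {β : ℝ} (hu : 6 ≤ u) (hβ : 0 < β) (hβ2 : (u : ℝ) + 16 * j ≤ β ^ 2)
    {b : ℕ} {m : Fin u ⊕ Fin j → ℕ} (hb : 1 ≤ b) (hE : Eff b 0 m)
    (hv : b * β ≤ ∑ i, (wt u j i : ℝ) * (m i : ℝ)) :
    ∃ (b' : ℕ) (m' : Fin u ⊕ Fin j → ℕ), b' ≤ b ∧ IrrV u j β b' m' := by
  obtain ⟨b', m', h1, h2, h3, h4, h5, ⟨i₀, μ, hi₀, h6⟩, h7⟩ := structure_w (wt u j)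
    (by rw [card_wt_one]; exact hu) hβ (by rw [sum_wt_sq]; exact hβ2) b m hb hE hv
  refine ⟨b', m', h2, h1, h3, h4, h5, ?_, h7⟩
  rcases i₀ with i₀ | i₀
  · refine ⟨i₀, μ, fun i hi => h6 (Sum.inl i) rfl ?_⟩
    intro h
    exact hi (Sum.inl_injective h)
  · simp [wt] at hi₀

theorem IrrV.mono {u j : ℕ} {β β' : ℝ} {b : ℕ} {m : Fin u ⊕ Fin j → ℕ} (h : IrrV u j β b m)
    (hβ : β' ≤ β) : IrrV u j β' b m := by
  obtain ⟨h1, h2, h3, h4, h5, h6⟩ := h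
  refine ⟨h1, h2, h3, le_trans ?_ h4, h5, h6⟩
  exact mul_le_mul_of_nonneg_left hβ (Nat.cast_nonneg _)

theorem cauchy_wt {u j : ℕ} (m : Fin u ⊕ Fin j → ℕ) :
    (∑ i, (wt u j i : ℝ) * (m i : ℝ)) ^ 2 ≤ ((u : ℝ) + 16 * j) * ∑ i, (m i : ℝ) ^ 2 := by
  have := Finset.sum_mul_sq_le_sq_mul_sq univ (fun i => (wt u j i : ℝ)) (fun i => (m i : ℝ))
  rwa [sum_wt_sq] at this

/-- The sum of a near constant function. -/
theorem sum_near_const {n : ℕ} (f : Fin n → ℝ) (i₀ : Fin n) (μ : ℝ) (h : ∀ i, i ≠ i₀ → f i = μ) :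
    ∑ i, f i = (n - 1) * μ + f i₀ := by
  rw [← Finset.add_sum_erase _ _ (mem_univ i₀), Finset.sum_congr rfl
    (fun i hi => h i (Finset.ne_of_mem_erase hi)), sum_const, card_erase_of_mem (mem_univ _),
    card_univ, Fintype.card_fin, nsmul_eq_mul]
  have : 1 ≤ n := by
    have := i₀.2
    omega
  push_cast [Nat.cast_sub this]
  ring

/-- Positivity of the common multiplicity. -/
theorem IrrV.pos {u j : ℕ} {β : ℝ} {b : ℕ} {m : Fin u ⊕ Fin j → ℕ} (h : IrrV u j β b m)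
    (hβ : 0 < β) (hβ2 : (u : ℝ) + 16 * j ≤ β ^ 2) (hu : 37 * (u + 16 * j) ≤ (u - 1) ^ 2)
    (hu1 : 1 ≤ u) (i₀ : Fin u) (μ : ℕ) (hμ : ∀ i, i ≠ i₀ → m (Sum.inl i) = μ) : 1 ≤ μ := by
  classical
  by_contra hμ0
  have hμ0 : μ = 0 := by omega
  obtain ⟨hb, hmb, hE, hv, -, hself⟩ := h
  have hu38 : 38 ≤ u - 1 := by
    by_contra hcon
    have h1 : u - 1 ≤ 37 := by omega
    have h2 : (u - 1) ^ 2 ≤ 37 * (u - 1) := by
      rw [sq]
      exact Nat.mul_le_mul_right _ h1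
    omega
  -- some multiplicity is positive
  have hex : ∃ i, 1 ≤ m i := by
    by_contra hcon
    push Not at hcon
    have h1 : ∀ i, m i = 0 := fun i => by have := hcon i; omega
    simp only [h1, Nat.cast_zero, mul_zero, sum_const_zero] at hv
    have h2 : (0 : ℝ) < b * β := mul_pos (by exact_mod_cast hb) hβ
    linarith only [hv, h2]
  obtain ⟨i₁, hi₁, hmin⟩ : ∃ i, 1 ≤ m i ∧ ∀ k, 1 ≤ m k → m i ≤ m k := by
    obtain ⟨i, hi, hle⟩ := Finset.exists_min_image (univ.filter (fun i => 1 ≤ m i)) m (by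
      obtain ⟨i, hi⟩ := hex
      exact ⟨i, mem_filter.mpr ⟨mem_univ _, hi⟩⟩)
    refine ⟨i, (mem_filter.mp hi).2, fun k hk => hle k (mem_filter.mpr ⟨mem_univ _, hk⟩)⟩
  set x := m i₁ with hx
  have hs1 := hself i₁ hi₁
  have hxb : x ≤ b := hmb i₁
  -- the support
  set A : Finset (Fin j) := univ.filter (fun k => 1 ≤ m (Sum.inr k)) with hA
  set p := A.card with hp
  have hpj : p ≤ j := by
    have := Finset.card_le_univ A
    rwa [Fintype.card_fin] at this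
  -- sums
  have hS : ∑ i, (wt u j i : ℝ) * (m i : ℝ) = m (Sum.inl i₀) + 4 * ∑ k ∈ A, (m (Sum.inr k) : ℝ) := by
    rw [Fintype.sum_sum_type]
    congr 1
    · simp only [wt, Sum.elim_inl, Nat.cast_one, one_mul]
      rw [sum_near_const (fun i => (m (Sum.inl i) : ℝ)) i₀ 0 (fun i hi => by
        rw [hμ i hi, hμ0, Nat.cast_zero])]
      ring
    · simp only [wt, Sum.elim_inr]
      rw [mul_sum, hA, sum_filter]
      refine Finset.sum_congr rfl fun k _ => ?_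
      split_ifs with h1
      · norm_num
      · have : m (Sum.inr k) = 0 := by omega
        rw [this]
        simp
  have hQ : (m (Sum.inl i₀) : ℝ) ^ 2 + ∑ k ∈ A, (m (Sum.inr k) : ℝ) ^ 2 = ∑ i, (m i : ℝ) ^ 2 := by
    rw [Fintype.sum_sum_type]
    congr 1
    · rw [sum_near_const (fun i => (m (Sum.inl i) : ℝ) ^ 2) i₀ 0 (fun i hi => by
        rw [hμ i hi, hμ0, Nat.cast_zero]; ring)]
      ring
    · rw [hA, sum_filter]
      refine Finset.sum_congr rfl fun k _ => ?_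
      split_ifs with h1
      · rfl
      · have : m (Sum.inr k) = 0 := by omega
        rw [this]
        simp
  set Q := ∑ i, (m i : ℝ) ^ 2 with hQdef
  have hQle : Q ≤ (b : ℝ) ^ 2 + x := by
    rw [hQdef]
    exact_mod_cast hs1
  -- Cauchy on the support
  have hC1 : (∑ k ∈ A, (m (Sum.inr k) : ℝ)) ^ 2 ≤ p * ∑ k ∈ A, (m (Sum.inr k) : ℝ) ^ 2 := by
    have := sq_sum_le_card_mul_sum_sq (s := A) (f := fun k => (m (Sum.inr k) : ℝ))
    exact this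
  have hpx : (p : ℝ) * (x : ℝ) ^ 2 ≤ ∑ k ∈ A, (m (Sum.inr k) : ℝ) ^ 2 := by
    have h1 : ∑ k ∈ A, (x : ℝ) ^ 2 ≤ ∑ k ∈ A, (m (Sum.inr k) : ℝ) ^ 2 := by
      refine Finset.sum_le_sum fun k hk => ?_
      have h2 : x ≤ m (Sum.inr k) := hmin _ (mem_filter.mp hk).2
      have h3 : (x : ℝ) ≤ m (Sum.inr k) := by exact_mod_cast h2
      exact pow_le_pow_left₀ (Nat.cast_nonneg _) h3 2
    rwa [sum_const, nsmul_eq_mul] at h1
  set E : ℝ := (m (Sum.inl i₀) : ℝ) with hEdef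
  set T : ℝ := ∑ k ∈ A, (m (Sum.inr k) : ℝ) with hT
  set R : ℝ := ∑ k ∈ A, (m (Sum.inr k) : ℝ) ^ 2 with hR
  have hE0 : 0 ≤ E := Nat.cast_nonneg _
  have hT0 : 0 ≤ T := Finset.sum_nonneg fun _ _ => Nat.cast_nonneg _
  have hp0 : (0 : ℝ) ≤ p := Nat.cast_nonneg _
  have hR0 : 0 ≤ R := Finset.sum_nonneg fun _ _ => sq_nonneg _
  have hb1 : (1 : ℝ) ≤ b := by exact_mod_cast hb
  have hx1 : (1 : ℝ) ≤ x := by exact_mod_cast hi₁
  have hxb' : (x : ℝ) ≤ b := by exact_mod_cast hxb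
  have hS2 : (E + 4 * T) ^ 2 ≤ (1 + 16 * p) * (E ^ 2 + R) := by
    -- (E + 4T)^2 ≤ (1 + 16 p)(E^2 + T^2/p)
    have h1 : T ^ 2 ≤ p * R := hC1
    have h2 : 2 * E * (4 * T) ≤ 16 * p * E ^ 2 + R := by
      -- 8 E T ≤ 16 p E^2 + R
      have h3 : (8 * (E * T)) ^ 2 ≤ (16 * p * E ^ 2 + R) ^ 2 := by
        have h4 : (8 * (E * T)) ^ 2 = 64 * E ^ 2 * T ^ 2 := by ring
        have h5 : 64 * E ^ 2 * T ^ 2 ≤ 64 * E ^ 2 * (p * R) :=
          mul_le_mul_of_nonneg_left h1 (by positivity)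
        have h6 : 64 * E ^ 2 * (p * R) ≤ (16 * p * E ^ 2 + R) ^ 2 := by
          nlinarith only [sq_nonneg (16 * p * E ^ 2 - R)]
        rw [h4]
        exact h5.trans h6
      have h7 := abs_le_of_sq_le_sq h3 (by positivity)
      have h8 := (le_abs_self _).trans h7
      linarith only [h8]
    nlinarith only [h1, h2]
  have hβb : (b : ℝ) ^ 2 * ((u : ℝ) + 16 * j) ≤ (E + 4 * T) ^ 2 := by
    rw [hS] at hv
    have h1 : ((b : ℝ) * β) ^ 2 ≤ (E + 4 * T) ^ 2 :=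
      pow_le_pow_left₀ (by positivity) hv 2
    have h2 : (b : ℝ) ^ 2 * ((u : ℝ) + 16 * j) ≤ (b : ℝ) ^ 2 * β ^ 2 :=
      mul_le_mul_of_nonneg_left hβ2 (by positivity)
    rw [mul_pow] at h1
    exact h2.trans h1
  have hpj' : (p : ℝ) ≤ j := by exact_mod_cast hpj
  -- (u - 1) b^2 ≤ (1 + 16 p) x
  have hmain : ((u : ℝ) - 1) * (b : ℝ) ^ 2 ≤ (1 + 16 * p) * x := by
    have h1 : (b : ℝ) ^ 2 * ((u : ℝ) + 16 * j) ≤ (1 + 16 * p) * ((b : ℝ) ^ 2 + x) := by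
      calc (b : ℝ) ^ 2 * ((u : ℝ) + 16 * j) ≤ (E + 4 * T) ^ 2 := hβb
        _ ≤ (1 + 16 * p) * (E ^ 2 + R) := hS2
        _ = (1 + 16 * p) * Q := by rw [hQ]
        _ ≤ _ := mul_le_mul_of_nonneg_left hQle (by positivity)
    have h2 : (b : ℝ) ^ 2 * ((u : ℝ) + 16 * p) ≤ (b : ℝ) ^ 2 * ((u : ℝ) + 16 * j) :=
      mul_le_mul_of_nonneg_left (by linarith only [hpj']) (by positivity)
    linarith only [h1, h2]
  have hu38' : (38 : ℝ) ≤ (u : ℝ) - 1 := by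
    have : ((38 : ℕ) : ℝ) ≤ ((u - 1 : ℕ) : ℝ) := by exact_mod_cast hu38
    rw [Nat.cast_sub hu1] at this
    push_cast at this
    exact this
  have hu' : 37 * ((u : ℝ) + 16 * j) ≤ ((u : ℝ) - 1) ^ 2 := by
    have : ((37 * (u + 16 * j) : ℕ) : ℝ) ≤ (((u - 1) ^ 2 : ℕ) : ℝ) := by exact_mod_cast hu
    rw [Nat.cast_pow, Nat.cast_sub hu1] at this
    push_cast at this
    exact this
  have hpx2 : (p : ℝ) * (x : ℝ) ^ 2 ≤ 2 * (b : ℝ) ^ 2 := by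
    have h1 : (p : ℝ) * (x : ℝ) ^ 2 ≤ Q := by
      rw [← hQ]
      nlinarith only [hpx, hE0]
    nlinarith only [h1, hQle, hxb', hb1]
  rcases Nat.eq_zero_or_pos p with hp00 | hp1
  · rw [hp00, Nat.cast_zero, mul_zero, add_zero, one_mul] at hmain
    nlinarith only [hmain, hxb', hb1, hu38']
  · have hp1' : (1 : ℝ) ≤ p := by exact_mod_cast hp1
    -- ((u-1) b^2)^2 ≤ (17 p x)^2 ≤ 578 p b^2
    have h1 : ((u : ℝ) - 1) * (b : ℝ) ^ 2 ≤ 17 * p * x := by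
      nlinarith only [hmain, hp1', hx1]
    have h2 : (((u : ℝ) - 1) * (b : ℝ) ^ 2) ^ 2 ≤ (17 * p * x) ^ 2 :=
      pow_le_pow_left₀ (by nlinarith only [hu38', sq_nonneg (b : ℝ)]) h1 2
    have h3 : (17 * (p : ℝ) * x) ^ 2 ≤ 578 * p * (b : ℝ) ^ 2 := by
      have h4 : (17 * (p : ℝ) * x) ^ 2 = 289 * p * (p * (x : ℝ) ^ 2) := by ring
      rw [h4]
      have h5 : 289 * (p : ℝ) * (p * (x : ℝ) ^ 2) ≤ 289 * (p : ℝ) * (2 * (b : ℝ) ^ 2) :=
        mul_le_mul_of_nonneg_left hpx2 (by positivity)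
      linarith only [h5]
    have h6 : ((u : ℝ) - 1) ^ 2 * (b : ℝ) ^ 2 * (b : ℝ) ^ 2 ≤ 578 * p * (b : ℝ) ^ 2 := by
      have h7 : (((u : ℝ) - 1) * (b : ℝ) ^ 2) ^ 2 =
        ((u : ℝ) - 1) ^ 2 * (b : ℝ) ^ 2 * (b : ℝ) ^ 2 := by ring
      rw [← h7]
      exact h2.trans h3
    have h8 : ((u : ℝ) - 1) ^ 2 * (b : ℝ) ^ 2 ≤ 578 * p :=
      le_of_mul_le_mul_right h6 (by positivity)
    have h9 : ((u : ℝ) - 1) ^ 2 ≤ ((u : ℝ) - 1) ^ 2 * (b : ℝ) ^ 2 :=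
      le_mul_of_one_le_right (sq_nonneg _) (one_le_pow₀ hb1)
    linarith only [h8, h9, hu', hpj', hu38']

end Exp

end Vale.Agent.P279
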