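import Mathlib
import Vale.Agent.P279.Exp.D

/-!
# P279: the descent, continued
-/

namespace Vale.Agent.P279

namespace Exp

open Finset

theorem factor_arith {v N μ α β b b' S Q : ℝ} (hv : 38 ≤ v) (hN : 39 ≤ N) (hμ : 1 ≤ μ)
    (hb : 1 ≤ b) (hb' : 1 ≤ b') (hα : α = S / N)
    (hβ : β = √N + 4 / b) (hS : b' * β ≤ S) (hC : S ^ 2 ≤ N * Q) (hQ : Q ≤ b' ^ 2 + μ)
    (hvar : v * (μ - α) ^ 2 ≤ Q - S ^ 2 / N) : 13 * b' ≤ 2 * b := by
  have hN0 : 0 < N := by linarith only [hN]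
  set s : ℝ := √N with hs
  have hs0 : 0 < s := Real.sqrt_pos.mpr hN0
  have hs2 : s ^ 2 = N := Real.sq_sqrt hN0.le
  have hb0 : 0 < b := by linarith only [hb]
  have hb'0 : 0 < b' := by linarith only [hb']
  -- (1)
  have h1 : (b' * β) ^ 2 ≤ S ^ 2 := pow_le_pow_left₀ (by rw [hβ]; positivity) hS 2
  have h2 : b' ^ 2 * (N + 8 * s / b) ≤ (b' * β) ^ 2 := by
    rw [hβ, mul_pow]
    apply mul_le_mul_of_nonneg_left _ (by positivity)
    have h3 : (s + 4 / b) ^ 2 = s ^ 2 + 8 * s / b + (4 / b) ^ 2 := by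
      field_simp
      ring
    rw [h3, hs2]
    have : 0 ≤ (4 / b) ^ 2 := by positivity
    linarith only [this]
  have h3 : b' ^ 2 * (8 * s / b) ≤ N * μ := by
    have h4 : N * Q ≤ N * (b' ^ 2 + μ) := mul_le_mul_of_nonneg_left hQ hN0.le
    linarith only [h1, h2, hC, h4]
  have h4 : 8 * b' ^ 2 ≤ s * μ * b := by
    have h5 : b' ^ 2 * (8 * s / b) = s * (8 * b' ^ 2) / b := by ring
    rw [h5, div_le_iff₀ hb0] at h3
    have h6 : s * (8 * b' ^ 2) ≤ s * (s * μ * b) := by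
      calc s * (8 * b' ^ 2) ≤ N * μ * b := h3
        _ = _ := by rw [← hs2]; ring
    exact le_of_mul_le_mul_left h6 hs0
  -- (2)
  have h5 : b' ^ 2 ≤ S ^ 2 / N := by
    rw [le_div_iff₀ hN0]
    have h6 : 0 ≤ b' ^ 2 * (8 * s / b) := by positivity
    linarith only [h1, h2, h6]
  have h6 : v * (μ - α) ^ 2 ≤ μ := by linarith only [hvar, hQ, h5]
  have h7 : 38 * (μ - α) ^ 2 ≤ μ ^ 2 := by
    have h8 : 38 * (μ - α) ^ 2 ≤ v * (μ - α) ^ 2 :=
      mul_le_mul_of_nonneg_right hv (sq_nonneg _)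
    have h9 : μ ≤ μ ^ 2 := by nlinarith only [hμ]
    linarith only [h6, h8, h9]
  have h8 : 0.8377 * μ ≤ α := by
    by_contra hcon
    push Not at hcon
    have h9 : 0.1623 * μ < μ - α := by linarith only [hcon]
    have h10 : (0.1623 * μ) ^ 2 < (μ - α) ^ 2 :=
      pow_lt_pow_left₀ h9 (by positivity) (by norm_num)
    nlinarith only [h10, h7, hμ]
  -- (3)
  have h9 : N * α ^ 2 ≤ b' ^ 2 + μ := by
    have h10 : N * α ^ 2 = S ^ 2 / N := by
      rw [hα]
      field_simp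
    rw [h10, div_le_iff₀ hN0]
    have h11 : N * Q ≤ N * (b' ^ 2 + μ) := mul_le_mul_of_nonneg_left hQ hN0.le
    linarith only [hC, h11]
  have h10 : (s * μ * 13) ^ 2 ≤ (16 * b') ^ 2 := by
    have h11 : (0.8377 * μ) ^ 2 ≤ α ^ 2 := pow_le_pow_left₀ (by positivity) h8 2
    have h12 : N * (0.8377 * μ) ^ 2 ≤ N * α ^ 2 := mul_le_mul_of_nonneg_left h11 hN0.le
    have h13 : (s * μ * 13) ^ 2 = 169 * (N * μ ^ 2) := by
      rw [← hs2]
      ring
    have h14 : μ ≤ μ ^ 2 := by nlinarith only [hμ]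
    have h15 : 39 * μ ^ 2 ≤ N * μ ^ 2 := mul_le_mul_of_nonneg_right hN (sq_nonneg _)
    rw [h13]
    nlinarith only [h9, h12, h14, h15]
  have h11 : s * μ * 13 ≤ 16 * b' := by
    have := abs_le_of_sq_le_sq h10 (by positivity)
    exact (le_abs_self _).trans this
  have h12 : 8 * b' ^ 2 * 13 ≤ 16 * b' * b := by
    calc 8 * b' ^ 2 * 13 ≤ s * μ * b * 13 := by linarith only [h4]
      _ = s * μ * 13 * b := by ring
      _ ≤ 16 * b' * b := mul_le_mul_of_nonneg_right h11 hb0.le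
  have h13 : b' * (13 * b') ≤ b' * (2 * b) := by linarith only [h12]
  exact le_of_mul_le_mul_left h13 hb'0

/-- The variance bound. -/
theorem variance_wt {u j : ℕ} (m : Fin u ⊕ Fin j → ℕ) (i₀ : Fin u) (μ : ℕ)
    (hμ : ∀ i, i ≠ i₀ → m (Sum.inl i) = μ) (hN : 0 < (u : ℝ) + 16 * j) :
    ((u : ℝ) - 1) * ((μ : ℝ) - (∑ i, (wt u j i : ℝ) * (m i : ℝ)) / ((u : ℝ) + 16 * j)) ^ 2 ≤
      ∑ i, (m i : ℝ) ^ 2 - (∑ i, (wt u j i : ℝ) * (m i : ℝ)) ^ 2 / ((u : ℝ) + 16 * j) := by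
  set S := ∑ i, (wt u j i : ℝ) * (m i : ℝ) with hS
  set N := (u : ℝ) + 16 * j with hNdef
  set α := S / N with hα
  have h1 : ∑ i, ((m i : ℝ) - α * wt u j i) ^ 2 = ∑ i, (m i : ℝ) ^ 2 - S ^ 2 / N := by
    have h2 : ∀ i, ((m i : ℝ) - α * wt u j i) ^ 2 =
        (m i : ℝ) ^ 2 - 2 * α * ((wt u j i : ℝ) * (m i : ℝ)) + α ^ 2 * (wt u j i : ℝ) ^ 2 :=
      fun i => by ring
    simp only [h2, sum_add_distrib, sum_sub_distrib, ← mul_sum]
    rw [sum_wt_sq, ← hS, ← hNdef, hα]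
    field_simp
    ring
  rw [← h1, Fintype.sum_sum_type]
  have h2 : ∑ i : Fin u, ((m (Sum.inl i) : ℝ) - α * wt u j (Sum.inl i)) ^ 2 =
      ((u : ℝ) - 1) * ((μ : ℝ) - α) ^ 2 + ((m (Sum.inl i₀) : ℝ) - α) ^ 2 := by
    rw [sum_near_const _ i₀ (((μ : ℝ) - α) ^ 2)]
    · simp [wt]
    · intro i hi
      simp [wt, hμ i hi]
  rw [h2]
  have h3 : 0 ≤ ∑ k : Fin j, ((m (Sum.inr k) : ℝ) - α * wt u j (Sum.inr k)) ^ 2 :=
    sum_nonneg fun _ _ => sq_nonneg _
  have h4 := sq_nonneg ((m (Sum.inl i₀) : ℝ) - α)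
  linarith only [h3, h4]

theorem factor {u j : ℕ} {b b' : ℕ} {m : Fin u ⊕ Fin j → ℕ}
    (hb : 1 ≤ b) (h : IrrV u j (√((u : ℝ) + 16 * j) + 4 / b) b' m)
    (hu : 37 * (u + 16 * j) ≤ (u - 1) ^ 2) (hu1 : 1 ≤ u) : 13 * (b' : ℝ) ≤ 2 * b := by
  have hN0 : (0 : ℝ) < (u : ℝ) + 16 * j := by
    have : (1 : ℝ) ≤ u := by exact_mod_cast hu1
    positivity
  have hb0 : (0 : ℝ) < b := by exact_mod_cast hb
  have hs0 := Real.sqrt_pos.mpr hN0
  have hs2 := Real.sq_sqrt hN0.le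
  have hβ0 : 0 < √((u : ℝ) + 16 * j) + 4 / b := by positivity
  have hβ2 : (u : ℝ) + 16 * j ≤ (√((u : ℝ) + 16 * j) + 4 / b) ^ 2 := by
    have h1 : √((u : ℝ) + 16 * j) ≤ √((u : ℝ) + 16 * j) + 4 / b := by
      have : (0 : ℝ) ≤ 4 / b := by positivity
      linarith only [this]
    have h2 := pow_le_pow_left₀ hs0.le h1 2
    rwa [hs2] at h2
  obtain ⟨i₀, μ, hμ⟩ := h.2.2.2.2.1
  have hμ1 : 1 ≤ μ := h.pos hβ0 hβ2 hu hu1 i₀ μ hμ
  have hu38 : 38 ≤ u - 1 := by
    by_contra hcon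
    have h1 : u - 1 ≤ 37 := by omega
    have h2 : (u - 1) ^ 2 ≤ 37 * (u - 1) := by
      rw [sq]
      exact Nat.mul_le_mul_right _ h1
    omega
  have hu38' : (38 : ℝ) ≤ (u : ℝ) - 1 := by
    have : ((38 : ℕ) : ℝ) ≤ ((u - 1 : ℕ) : ℝ) := by exact_mod_cast hu38
    rw [Nat.cast_sub hu1] at this
    push_cast at this
    exact this
  obtain ⟨hb', -, -, hv, -, hself⟩ := h
  -- a second unit point
  obtain ⟨i₁, hi₁⟩ : ∃ i : Fin u, i ≠ i₀ := by
    by_contra hcon
    push Not at hcon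
    have h1 : (univ : Finset (Fin u)) ⊆ {i₀} := fun i _ => by rw [mem_singleton]; exact hcon i
    have h2 := card_le_card h1
    rw [card_univ, Fintype.card_fin, card_singleton] at h2
    omega
  have hself1 := hself (Sum.inl i₁) (by rw [hμ i₁ hi₁]; exact hμ1)
  rw [hμ i₁ hi₁] at hself1
  have hQ : ∑ i, (m i : ℝ) ^ 2 ≤ (b' : ℝ) ^ 2 + μ := by exact_mod_cast hself1
  refine factor_arith (v := (u : ℝ) - 1) (N := (u : ℝ) + 16 * j) (μ := μ)
    (α := (∑ i, (wt u j i : ℝ) * (m i : ℝ)) / ((u : ℝ) + 16 * j))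
    (S := ∑ i, (wt u j i : ℝ) * (m i : ℝ)) (Q := ∑ i, (m i : ℝ) ^ 2)
    (β := √((u : ℝ) + 16 * j) + 4 / b) hu38' ?_ (by exact_mod_cast hμ1) (by exact_mod_cast hb)
    (by exact_mod_cast hb') rfl rfl hv (cauchy_wt m) hQ
    (variance_wt m i₀ μ hμ hN0)
  have : (0 : ℝ) ≤ 16 * j := by positivity
  linarith only [hu38', this]

/-! ### Merging sixteen points -/

theorem Eff.comap {ι ι' : Type*} {b c : ℕ} {m : ι → ℕ} (g : ι' → ι)
    (hg : Function.Injective g) (h : Eff b c m) : Eff b c (fun i => m (g i)) := by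
  intro q'
  obtain ⟨P, hP, hV, hm⟩ := h (Function.extend g q' (fun _ _ => 0))
  refine ⟨P, hP, hV, fun i => ?_⟩
  have := hm (g i)
  rwa [hg.extend_apply] at this

/-- The multiplicities after a permutation which moves the exceptional point to the front. -/
theorem exists_front {u j : ℕ} (hu : 1 ≤ u) {b : ℕ} {m : Fin u ⊕ Fin j → ℕ} (hE : Eff b 0 m)
    (i₀ : Fin u) (μ : ℕ) (hμ : ∀ i, i ≠ i₀ → m (Sum.inl i) = μ) :
    Eff b 0 (Sum.elim (fun i : Fin u => if (i : ℕ) = 0 then m (Sum.inl i₀) else μ)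
      (fun k : Fin j => m (Sum.inr k))) := by
  have hinj : Function.Injective (Sum.map (Equiv.swap i₀ (⟨0, hu⟩ : Fin u)) (id : Fin j → Fin j)) :=
    Function.Injective.sumMap (Equiv.injective _) Function.injective_id
  have h1 := Eff.comap _ hinj hE
  convert h1 using 1
  funext x
  rcases x with i | k
  · simp only [Sum.elim_inl, Sum.map_inl]
    by_cases hi : i = ⟨0, hu⟩
    · rw [hi, Equiv.swap_apply_right, if_pos rfl]
    · have h2 : (i : ℕ) ≠ 0 := fun h => hi (Fin.ext h)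
      rw [if_neg h2]
      by_cases hi0 : i = i₀
      · rw [hi0, Equiv.swap_apply_left, hμ]
        intro h3
        exact hi (hi0.trans h3.symm)
      · rw [Equiv.swap_apply_of_ne_of_ne hi0 hi, hμ i hi0]
  · rfl

theorem merge {u j : ℕ} (hu : 1 ≤ u) {b : ℕ} (e μ : ℕ) (hμ : 1 ≤ μ) (f : Fin j → ℕ)
    (hE : Eff b 0 (Sum.elim (fun i : Fin (u + 16) => if (i : ℕ) = 0 then e else μ) f)) :
    Eff b 0 (Sum.elim (fun i : Fin u => if (i : ℕ) = 0 then e else μ)
      (Fin.cons (4 * μ + 1) f : Fin (j + 1) → ℕ)) := by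
  -- split off sixteen points
  set g : Fin 16 ⊕ (Fin u ⊕ Fin j) → Fin (u + 16) ⊕ Fin j :=
    Sum.elim (fun i => Sum.inl (Fin.natAdd u i))
      (Sum.elim (fun i => Sum.inl (Fin.castAdd 16 i)) (fun k => Sum.inr k)) with hg
  have hginj : Function.Injective g := by
    intro x y hxy
    rcases x with x | x | x <;> rcases y with y | y | y
    · simp only [hg, Sum.elim_inl, Sum.inl.injEq] at hxy
      rw [Fin.natAdd_inj] at hxy
      rw [hxy]
    · simp only [hg, Sum.elim_inl, Sum.elim_inr, Sum.inl.injEq] at hxy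
      have h1 := congrArg Fin.val hxy
      rw [Fin.val_natAdd, Fin.val_castAdd] at h1
      omega
    · simp [hg] at hxy
    · simp only [hg, Sum.elim_inl, Sum.elim_inr, Sum.inl.injEq] at hxy
      have h1 := congrArg Fin.val hxy
      rw [Fin.val_natAdd, Fin.val_castAdd] at h1
      omega
    · simp only [hg, Sum.elim_inl, Sum.elim_inr, Sum.inl.injEq] at hxy
      rw [Fin.castAdd_inj] at hxy
      rw [hxy]
    · simp [hg] at hxy
    · simp [hg] at hxy
    · simp [hg] at hxy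
    · simp only [hg, Sum.elim_inr, Sum.inr.injEq] at hxy
      rw [hxy]
  have h1 := Eff.comap g hginj hE
  have h2 : (fun x => (Sum.elim (fun i : Fin (u + 16) => if (i : ℕ) = 0 then e else μ) f) (g x)) =
      Sum.elim (fun _ : Fin 16 => μ)
        (Sum.elim (fun i : Fin u => if (i : ℕ) = 0 then e else μ) f) := by
    funext x
    rcases x with x | x | x
    · simp only [hg, Sum.elim_inl, Fin.val_natAdd]
      rw [if_neg (by omega)]
    · simp only [hg, Sum.elim_inl, Sum.elim_inr, Fin.val_castAdd]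
    · simp only [hg, Sum.elim_inr]
  rw [h2] at h1
  rcases glueT b (4 * μ) _ _ h1 with h3 | h3
  · exact absurd h3 (strict16 hμ)
  · set g' : Fin u ⊕ Fin (j + 1) → Unit ⊕ (Fin u ⊕ Fin j) :=
      Sum.elim (fun i => Sum.inr (Sum.inl i))
        (Fin.cons (Sum.inl ()) (fun k => Sum.inr (Sum.inr k))) with hg'
    have hginj' : Function.Injective g' := by
      intro x y hxy
      rcases x with x | x <;> rcases y with y | y
      · simp only [hg', Sum.elim_inl, Sum.inr.injEq, Sum.inl.injEq] at hxy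
        rw [hxy]
      · exfalso
        induction y using Fin.cases with
        | zero => simp [hg'] at hxy
        | succ k => simp [hg'] at hxy
      · exfalso
        induction x using Fin.cases with
        | zero => simp [hg'] at hxy
        | succ k => simp [hg'] at hxy
      · induction x using Fin.cases with
        | zero =>
          induction y using Fin.cases with
          | zero => rfl
          | succ l => simp [hg'] at hxy
        | succ k =>
          induction y using Fin.cases with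
          | zero => simp [hg'] at hxy
          | succ l =>
            simp only [hg', Sum.elim_inr, Fin.cons_succ, Sum.inr.injEq] at hxy
            rw [hxy]
    have h4 := Eff.comap g' hginj' h3
    convert h4 using 1
    funext x
    rcases x with x | x
    · rfl
    · refine Fin.cases ?_ (fun k => ?_) x
      · simp [hg']
      · simp [hg']

/-- One step of the descent. -/
theorem step {u j : ℕ} {b : ℕ} {m : Fin (u + 16) ⊕ Fin j → ℕ}
    (h : IrrV (u + 16) j (√((u : ℝ) + 16 * ((j : ℝ) + 1))) b m)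
    (hu : 37 * (u + 16 * (j + 1)) ≤ (u - 1) ^ 2) (hu1 : 1 ≤ u) :
    ∃ (b' : ℕ) (m' : Fin u ⊕ Fin (j + 1) → ℕ), 13 * (b' : ℝ) ≤ 2 * b ∧
      IrrV u (j + 1) (√((u : ℝ) + 16 * ((j : ℝ) + 1))) b' m' := by
  set N : ℝ := (u : ℝ) + 16 * ((j : ℝ) + 1) with hN
  have hN0 : 0 < N := by
    have : (1 : ℝ) ≤ u := by exact_mod_cast hu1
    positivity
  have hs0 := Real.sqrt_pos.mpr hN0
  have hs2 := Real.sq_sqrt hN0.le
  have hNN : ((u + 16 : ℕ) : ℝ) + 16 * (j : ℝ) = N := by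
    rw [hN]
    push_cast
    ring
  obtain ⟨i₀, μ, hμ⟩ := h.2.2.2.2.1
  have hμ1 : 1 ≤ μ := by
    refine h.pos hs0 (by rw [hNN, hs2]) ?_ (by omega) i₀ μ hμ
    have h1 : (u - 1) ^ 2 ≤ (u + 16 - 1) ^ 2 := Nat.pow_le_pow_left (by omega) 2
    have h2 : u + 16 + 16 * j = u + 16 * (j + 1) := by ring
    rw [h2]
    exact hu.trans h1
  obtain ⟨hb, -, hE, hv, -, -⟩ := h
  have hE2 := merge hu1 (m (Sum.inl i₀)) μ hμ1 _ (exists_front (by omega) hE i₀ μ hμ)
  set m₂ : Fin u ⊕ Fin (j + 1) → ℕ :=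
    Sum.elim (fun i : Fin u => if (i : ℕ) = 0 then m (Sum.inl i₀) else μ)
      (Fin.cons (4 * μ + 1) (fun k : Fin j => m (Sum.inr k)) : Fin (j + 1) → ℕ) with hm₂
  have hsum : ∑ i, (wt u (j + 1) i : ℝ) * (m₂ i : ℝ) =
      ∑ i, (wt (u + 16) j i : ℝ) * (m i : ℝ) + 4 := by
    rw [Fintype.sum_sum_type, Fintype.sum_sum_type, Fin.sum_univ_succ]
    simp only [wt, Sum.elim_inl, Sum.elim_inr, Nat.cast_one, one_mul, hm₂, Fin.cons_zero,
      Fin.cons_succ]
    rw [sum_near_const (fun i => (m (Sum.inl i) : ℝ)) i₀ (μ : ℝ) (fun i hi => by rw [hμ i hi]),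
      sum_near_const (fun i : Fin u => ((if (i : ℕ) = 0 then m (Sum.inl i₀) else μ : ℕ) : ℝ))
        ⟨0, hu1⟩ (μ : ℝ) (fun i hi => by
          rw [if_neg]
          exact fun h1 => hi (Fin.ext h1))]
    simp only [if_true]
    push_cast
    ring
  have hb0 : (0 : ℝ) < b := by exact_mod_cast hb
  have hv2 : (b : ℝ) * (√N + 4 / b) ≤ ∑ i, (wt u (j + 1) i : ℝ) * (m₂ i : ℝ) := by
    rw [hsum, mul_add, mul_div_cancel₀ _ hb0.ne']
    linarith only [hv]
  have hu38 : 38 ≤ u - 1 := by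
    by_contra hcon
    have h1 : u - 1 ≤ 37 := by omega
    have h2 : (u - 1) ^ 2 ≤ 37 * (u - 1) := by
      rw [sq]
      exact Nat.mul_le_mul_right _ h1
    omega
  have h4b : (0 : ℝ) ≤ 4 / b := by positivity
  obtain ⟨b', m', hb', hI⟩ := exists_irrV (u := u) (j := j + 1) (β := √N + 4 / b) (by omega)
    (by positivity) (by
      have h1 : √N ^ 2 ≤ (√N + 4 / b) ^ 2 := pow_le_pow_left₀ hs0.le (by linarith only [h4b]) 2
      rw [hs2] at h1
      have h2 : (u : ℝ) + 16 * ((j + 1 : ℕ) : ℝ) = N := by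
        rw [hN]
        push_cast
        ring
      rw [h2]
      exact h1) hb hE2 hv2
  refine ⟨b', m', ?_, hI.mono (by linarith only [h4b])⟩
  refine factor (u := u) (j := j + 1) (m := m') hb ?_ hu hu1
  have h2 : (u : ℝ) + 16 * ((j + 1 : ℕ) : ℝ) = N := by
    rw [hN]
    push_cast
    ring
  rw [h2]
  exact hI

/-- The descent. -/
theorem descent (k : ℕ) : ∀ {u j b : ℕ} {N : ℝ} {m : Fin (u + 16 * k) ⊕ Fin j → ℕ},
    N = (u : ℝ) + 16 * ((j : ℝ) + k) → IrrV (u + 16 * k) j (√N) b m →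
    37 * (u + 16 * (j + k)) ≤ (u - 1) ^ 2 → 1 ≤ u → (13 / 2 : ℝ) ^ k ≤ b := by
  induction k with
  | zero =>
    intro u j b N m _ h _ _
    rw [pow_zero]
    exact_mod_cast h.1
  | succ k ih =>
    intro u j b N m hN h hu hu1
    have h1 : u + 16 * (k + 1) = (u + 16 * k) + 16 := by ring
    have key : ∀ (U : ℕ) (hU : U = (u + 16 * k) + 16) (m : Fin U ⊕ Fin j → ℕ),
        IrrV U j (√N) b m → (13 / 2 : ℝ) ^ (k + 1) ≤ b := by
      intro U hU m h
      subst hU
      have hN' : N = ((u + 16 * k : ℕ) : ℝ) + 16 * ((j : ℝ) + 1) := by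
        rw [hN]
        push_cast
        ring
      rw [hN'] at h
      obtain ⟨b', m', h2, h3⟩ := step h (by
        have h4 : (u - 1) ^ 2 ≤ (u + 16 * k - 1) ^ 2 := Nat.pow_le_pow_left (by omega) 2
        have h5 : u + 16 * k + 16 * (j + 1) = u + 16 * (j + (k + 1)) := by ring
        rw [h5]
        exact hu.trans h4) (by omega)
      rw [← hN'] at h3
      have h4 := ih (u := u) (j := j + 1) (b := b') (N := N) (m := m') (by
        rw [hN]
        push_cast
        ring) h3 (by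
        have h5 : u + 16 * (j + 1 + k) = u + 16 * (j + (k + 1)) := by ring
        rw [h5]
        exact hu) hu1
      rw [pow_succ]
      linarith only [h2, h4]
    exact key _ h1 m h

end Exp

end Vale.Agent.P279
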