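import Mathlib
import Vale.Agent.P279.Exp.D2

/-!
# P279: exponential bounds
-/

namespace Vale.Agent.P279

namespace Exp

open Finset

theorem eff_sum_zero {r b : ℕ} {m : Fin r → ℕ} (h : Eff b 0 m) :
    Eff b 0 (Sum.elim m (fun i : Fin 0 => i.elim0) : Fin r ⊕ Fin 0 → ℕ) := by
  have hinj : Function.Injective (Sum.elim id (fun i : Fin 0 => i.elim0) : Fin r ⊕ Fin 0 → Fin r) := by
    intro x y hxy
    rcases x with x | x
    · rcases y with y | y
      · simp only [Sum.elim_inl, id] at hxy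
        rw [hxy]
      · exact y.elim0
    · exact x.elim0
  have := Eff.comap _ hinj h
  convert this using 1
  funext x
  rcases x with x | x
  · rfl
  · exact x.elim0

theorem sum_wt_zero {r : ℕ} (m : Fin r ⊕ Fin 0 → ℕ) :
    ∑ i, (wt r 0 i : ℝ) * (m i : ℝ) = ∑ i : Fin r, (m (Sum.inl i) : ℝ) := by
  rw [Fintype.sum_sum_type]
  simp [wt]

/-- A violating curve has degree at least `(13 / 2) ^ k`. -/
theorem degree_ge {r k : ℕ} (hk : 16 * k + 1 ≤ r) (hr : 37 * r ≤ (r - 16 * k - 1) ^ 2) {d : ℕ}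
    {m : Fin r → ℕ} (hd : 1 ≤ d) (hE : Eff d 0 m) (hv : d * √(r : ℝ) ≤ ∑ i, (m i : ℝ)) :
    (13 / 2 : ℝ) ^ k ≤ d := by
  have hr1 : (1 : ℝ) ≤ r := by
    have : 1 ≤ r := by omega
    exact_mod_cast this
  have hs0 : 0 < √(r : ℝ) := Real.sqrt_pos.mpr (by linarith only [hr1])
  have h38 : 38 ≤ r := by
    by_contra hcon
    have h1 : r - 16 * k - 1 ≤ r - 1 := by omega
    have h2 : (r - 16 * k - 1) ^ 2 ≤ (r - 1) ^ 2 := Nat.pow_le_pow_left h1 2
    have h3 : (r - 1) ^ 2 ≤ 36 * (r - 1) := by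
      rw [sq]
      exact Nat.mul_le_mul_right _ (by omega)
    omega
  obtain ⟨b, m', hb, hI⟩ := exists_irrV (u := r) (j := 0) (β := √(r : ℝ)) (by omega) hs0
    (by rw [Real.sq_sqrt (by positivity)]; simp) hd (eff_sum_zero hE) (by
      rw [sum_wt_zero]
      exact hv)
  obtain ⟨u, hu⟩ : ∃ u, r = u + 16 * k := ⟨r - 16 * k, by omega⟩
  have h1 : (13 / 2 : ℝ) ^ k ≤ b := by
    have key : ∀ (U : ℕ) (hU : U = u + 16 * k) (m : Fin U ⊕ Fin 0 → ℕ),
        IrrV U 0 (√(r : ℝ)) b m → (13 / 2 : ℝ) ^ k ≤ b := by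
      intro U hU m hI
      subst hU
      refine descent k (u := u) (j := 0) (N := (r : ℝ)) ?_ hI ?_ (by omega)
      · rw [hu]
        push_cast
        ring
      · have h2 : u + 16 * (0 + k) = r := by omega
        have h3 : u - 1 = r - 16 * k - 1 := by omega
        rw [h2, h3]
        exact hr
    exact key r hu m' hI
  have h2 : (b : ℝ) ≤ d := by exact_mod_cast hb
  exact h1.trans h2

/-- The exponential bound for the degrees. -/
noncomputable def Bd (r : ℕ) : ℝ := (2 : ℝ) ^ (((r : ℝ) - 7 * √(r : ℝ) - 18) / 6)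

theorem Bd_pos (r : ℕ) : 0 < Bd r := Real.rpow_pos_of_pos (by norm_num) _

theorem Bd_le {r : ℕ} {d : ℕ} {m : Fin r → ℕ} (hd : 1 ≤ d) (hE : Eff d 0 m)
    (hv : d * √(r : ℝ) ≤ ∑ i, (m i : ℝ)) : Bd r ≤ d := by
  have hd1 : (1 : ℝ) ≤ d := by exact_mod_cast hd
  set s : ℝ := √(r : ℝ) with hs
  have hs0 : 0 ≤ s := Real.sqrt_nonneg _
  have hs2 : s ^ 2 = r := Real.sq_sqrt (Nat.cast_nonneg _)
  rcases le_or_gt r 81 with hr | hr
  · have h1 : s ≤ 9 := by
      rw [hs, Real.sqrt_le_left (by norm_num)]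
      have : (r : ℝ) ≤ ((81 : ℕ) : ℝ) := by exact_mod_cast hr
      push_cast at this
      linarith only [this]
    have h2 : ((r : ℝ) - 7 * s - 18) / 6 ≤ 0 := by
      rw [← hs2]
      nlinarith only [h1, hs0]
    have h3 : Bd r ≤ 1 := by
      rw [Bd, ← hs]
      exact Real.rpow_le_one_of_one_le_of_nonpos (by norm_num) h2
    linarith only [h3, hd1]
  · have hr' : (82 : ℝ) ≤ r := by
      have : ((82 : ℕ) : ℝ) ≤ (r : ℝ) := by exact_mod_cast hr
      push_cast at this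
      exact this
    have h9 : 9 ≤ s := by
      rw [hs]
      apply Real.le_sqrt_of_sq_le
      linarith only [hr']
    set t : ℝ := √(37 * r) with ht
    have ht0 : 0 ≤ t := Real.sqrt_nonneg _
    have ht2 : t ^ 2 = 37 * r := Real.sq_sqrt (by positivity)
    have hts : t ≤ 7 * s := by
      have h1 : t ^ 2 ≤ (7 * s) ^ 2 := by
        rw [ht2, mul_pow, hs2]
        nlinarith only [hr']
      exact le_of_pow_le_pow_left₀ (by norm_num) (by positivity) h1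
    set k : ℕ := ⌊((r : ℝ) - 1 - t) / 16⌋₊ with hk
    have hnn : 0 ≤ ((r : ℝ) - 1 - t) / 16 := by
      have : t ≤ r - 1 := by
        have h1 : t ^ 2 ≤ ((r : ℝ) - 1) ^ 2 := by
          rw [ht2]
          nlinarith only [hr']
        exact le_of_pow_le_pow_left₀ (by norm_num) (by linarith only [hr']) h1
      linarith only [this]
    have hk1 : (k : ℝ) ≤ ((r : ℝ) - 1 - t) / 16 := Nat.floor_le hnn
    have hk2 : ((r : ℝ) - 1 - t) / 16 < k + 1 := Nat.lt_floor_add_one _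
    have hk3 : 16 * k + 1 ≤ r := by
      have h1 : 16 * (k : ℝ) + 1 ≤ r := by linarith only [hk1, ht0]
      exact_mod_cast h1
    have hk4 : 37 * r ≤ (r - 16 * k - 1) ^ 2 := by
      have h1 : t ≤ (r : ℝ) - 16 * k - 1 := by linarith only [hk1]
      have h2 : (37 : ℝ) * r ≤ ((r : ℝ) - 16 * k - 1) ^ 2 := by
        rw [← ht2]
        exact pow_le_pow_left₀ ht0 h1 2
      have h3 : ((r - 16 * k - 1 : ℕ) : ℝ) = (r : ℝ) - 16 * k - 1 := by
        rw [Nat.cast_sub (by omega), Nat.cast_sub (by omega)]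
        push_cast
        ring
      have h4 : ((37 * r : ℕ) : ℝ) ≤ (((r - 16 * k - 1) ^ 2 : ℕ) : ℝ) := by
        rw [Nat.cast_pow, h3]
        push_cast
        exact h2
      exact_mod_cast h4
    have h5 := degree_ge hk3 hk4 hd hE hv
    have h6 : Bd r ≤ (13 / 2 : ℝ) ^ k := by
      have h7 : (2 : ℝ) ^ (8 / 3 : ℝ) ≤ 13 / 2 := by
        have h8 : ((2 : ℝ) ^ (8 / 3 : ℝ)) ^ (3 : ℕ) ≤ (13 / 2) ^ (3 : ℕ) := by
          rw [← Real.rpow_natCast, ← Real.rpow_mul (by norm_num)]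
          norm_num
        exact le_of_pow_le_pow_left₀ (by norm_num) (by norm_num) h8
      have h8 : ((2 : ℝ) ^ (8 / 3 : ℝ)) ^ k ≤ (13 / 2 : ℝ) ^ k :=
        pow_le_pow_left₀ (by positivity) h7 k
      refine le_trans ?_ h8
      rw [← Real.rpow_natCast, ← Real.rpow_mul (by norm_num), Bd, ← hs]
      apply Real.rpow_le_rpow_of_exponent_le (by norm_num)
      linarith only [hk2, hts]
    exact h6.trans h5

theorem strict_exp {r : ℕ} {d : ℕ} {m : Fin r → ℕ} (hd : 1 ≤ d) (hdB : (d : ℝ) < Bd r)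
    (hE : Eff d 0 m) : ∑ i, (m i : ℝ) < d * √(r : ℝ) := by
  by_contra hcon
  push Not at hcon
  exact absurd (Bd_le hd hE hcon) (not_le.mpr hdB)

theorem close_exp {r : ℕ} (hr : 10 ≤ r) {d : ℕ} {m : Fin r → ℕ} (hE : Eff d 0 m) :
    ∑ i, (m i : ℝ) ≤ d * √((r : ℝ) + 9 / 8 * √(r : ℝ) / Bd r) := by
  have hr' : (10 : ℝ) ≤ r := by
    have : ((10 : ℕ) : ℝ) ≤ (r : ℝ) := by exact_mod_cast hr
    push_cast at this
    exact this
  rcases Nat.eq_zero_or_pos d with hd | hd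
  · subst hd
    have := (eff_zero hE).2
    simp [this]
  by_contra hcon
  push Not at hcon
  have hB := Bd_pos r
  set B := Bd r with hBdef
  set s : ℝ := √(r : ℝ) with hs
  have hs0 : 0 < s := Real.sqrt_pos.mpr (by linarith only [hr'])
  have hs2 : s ^ 2 = r := Real.sq_sqrt (Nat.cast_nonneg _)
  set ω : ℝ := 9 / 8 * s / B with hω
  have hω0 : 0 < ω := by positivity
  set β : ℝ := √((r : ℝ) + ω) with hβ
  have hβ2 : β ^ 2 = r + ω := Real.sq_sqrt (by positivity)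
  have hβ0 : 0 < β := Real.sqrt_pos.mpr (by positivity)
  have hβ1 : 1 < β := by
    rw [hβ]
    apply Real.lt_sqrt_of_sq_lt
    linarith only [hr', hω0]
  obtain ⟨b, m', hb, hI⟩ := exists_irrV (u := r) (j := 0) (β := β) (by omega) hβ0
    (by rw [hβ2]; push_cast; linarith only [hω0]) hd (eff_sum_zero hE) (by
      rw [sum_wt_zero]
      exact hcon.le)
  obtain ⟨hb1, hmb, hE', hv, ⟨i₀, μ, hμ⟩, hself⟩ := hI
  have hb1' : (1 : ℝ) ≤ b := by exact_mod_cast hb1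
  have hv0 := hv
  rw [sum_wt_zero] at hv
  have hBb : B ≤ b := by
    have hE'' : Eff b 0 (fun i : Fin r => m' (Sum.inl i)) :=
      Eff.comap Sum.inl Sum.inl_injective hE'
    refine Bd_le hb1 hE'' (le_trans ?_ hv)
    apply mul_le_mul_of_nonneg_left _ (Nat.cast_nonneg _)
    rw [hβ]
    apply Real.sqrt_le_sqrt
    linarith only [hω0]
  have hμ1 : 1 ≤ μ := by
    by_contra h0
    have h0 : μ = 0 := by omega
    rw [sum_near_const (fun i => (m' (Sum.inl i) : ℝ)) i₀ 0 (fun i hi => by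
      rw [hμ i hi, h0, Nat.cast_zero]), mul_zero, zero_add] at hv
    have h1 : (m' (Sum.inl i₀) : ℝ) ≤ b := by exact_mod_cast hmb _
    have h2 : (b : ℝ) * 1 < b * β := mul_lt_mul_of_pos_left hβ1 (by linarith only [hb1'])
    linarith only [hv, h1, h2]
  obtain ⟨i₁, hi₁⟩ : ∃ i : Fin r, i ≠ i₀ := by
    by_contra hc
    push Not at hc
    have h1 : (univ : Finset (Fin r)) ⊆ {i₀} := fun i _ => by rw [mem_singleton]; exact hc i
    have h2 := card_le_card h1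
    rw [card_univ, Fintype.card_fin, card_singleton] at h2
    omega
  have hself1 := hself (Sum.inl i₁) (by rw [hμ i₁ hi₁]; exact hμ1)
  rw [hμ i₁ hi₁] at hself1
  have hQ : ∑ i, (m' i : ℝ) ^ 2 ≤ (b : ℝ) ^ 2 + μ := by exact_mod_cast hself1
  have hQ2 : ((r : ℝ) - 1) * (μ : ℝ) ^ 2 ≤ ∑ i, (m' i : ℝ) ^ 2 := by
    rw [Fintype.sum_sum_type, sum_near_const (fun i => (m' (Sum.inl i) : ℝ) ^ 2) i₀ ((μ : ℝ) ^ 2)
      (fun i hi => by rw [hμ i hi])]
    simp only [univ_eq_empty, sum_empty, add_zero]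
    have := sq_nonneg (m' (Sum.inl i₀) : ℝ)
    linarith only [this]
  have hC := cauchy_wt m'
  have hμ1' : (1 : ℝ) ≤ μ := by exact_mod_cast hμ1
  have h1 : ((r : ℝ) - 2) * (μ : ℝ) ^ 2 ≤ (b : ℝ) ^ 2 := by nlinarith only [hQ, hQ2, hμ1']
  have h2 : (b : ℝ) ^ 2 * ω ≤ r * μ := by
    have h3 : ((b : ℝ) * β) ^ 2 ≤ (∑ i, (wt r 0 i : ℝ) * (m' i : ℝ)) ^ 2 :=
      pow_le_pow_left₀ (by positivity) hv0 2
    have h4 : ((r : ℝ) + 16 * ((0 : ℕ) : ℝ)) * ∑ i, (m' i : ℝ) ^ 2 ≤ r * ((b : ℝ) ^ 2 + μ) := by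
      push_cast
      rw [mul_zero, add_zero]
      exact mul_le_mul_of_nonneg_left hQ (by linarith only [hr'])
    rw [mul_pow, hβ2] at h3
    linarith only [h3, hC, h4]
  have h3 : B * ω = 9 / 8 * s := by
    rw [hω]
    field_simp
  have h4 : 9 / 8 * s ≤ b * ω := by
    rw [← h3]
    exact mul_le_mul_of_nonneg_right hBb hω0.le
  -- (9/8 s)^2 b^2 (r-2) ≤ (b ω)^2 b^2 (r - 2) ≤ r^2 μ^2 (r-2) ≤ r^2 b^2
  have h5 : (9 / 8 * s) ^ 2 ≤ (b * ω) ^ 2 := pow_le_pow_left₀ (by positivity) h4 2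
  have h6 : ((b : ℝ) ^ 2 * ω) ^ 2 ≤ (r * μ) ^ 2 := pow_le_pow_left₀ (by positivity) h2 2
  have h7 : (0 : ℝ) < (b : ℝ) ^ 2 := by positivity
  have h8 : (81 / 64 * (r : ℝ) * (r - 2)) * (b : ℝ) ^ 2 ≤ (r : ℝ) ^ 2 * (b : ℝ) ^ 2 := by
    have h9 : (9 / 8 * s) ^ 2 = 81 / 64 * r := by rw [mul_pow, hs2]; norm_num
    rw [h9] at h5
    have hr2 : (0 : ℝ) ≤ (r : ℝ) - 2 := by linarith only [hr']
    calc (81 / 64 * (r : ℝ) * (r - 2)) * (b : ℝ) ^ 2
        = (81 / 64 * r) * ((b : ℝ) ^ 2 * (r - 2)) := by ring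
      _ ≤ (b * ω) ^ 2 * ((b : ℝ) ^ 2 * (r - 2)) :=
          mul_le_mul_of_nonneg_right h5 (by positivity)
      _ = ((b : ℝ) ^ 2 * ω) ^ 2 * (r - 2) := by ring
      _ ≤ (r * μ) ^ 2 * (r - 2) := mul_le_mul_of_nonneg_right h6 hr2
      _ = (r : ℝ) ^ 2 * ((r - 2) * (μ : ℝ) ^ 2) := by ring
      _ ≤ _ := mul_le_mul_of_nonneg_left h1 (by positivity)
  have h9 := le_of_mul_le_mul_right h8 h7
  nlinarith only [h9, hr']

end Exp

end Vale.Agent.P279
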